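import Vale.Agent.P243.Mass

/-!
# P243, improved lower bound: basic tools
-/

open MeasureTheory Set Metric
open scoped RealInnerProductSpace ENNReal

namespace Vale.Agent.P243.Improve

open Vale.Agent.P243

/-- Projection on the plane orthogonal to `u`. -/
noncomputable abbrev proj (u : E3) : E3 →L[ℝ] plane u := (plane u).orthogonalProjectionOnto

/-- The fibre of `S` over the point `y` of the plane orthogonal to `u`. -/
def fib (u : E3) (S : Set E3) (y : plane u) : Set ℝ := {t | (y : E3) + t • u ∈ S}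

lemma proj_line {u : E3} (y : plane u) (t : ℝ) : proj u ((y : E3) + t • u) = y := by
  rw [map_add, map_smul, proj,
    Submodule.orthogonalProjectionOnto_orthogonalComplement_singleton_eq_zero]
  simp

lemma proj_decomp {u : E3} (hu : ‖u‖ = 1) (x : E3) : (proj u x : E3) + ⟪u, x⟫ • u = x := by
  have h := Submodule.starProjection_add_starProjection_orthogonal (K := (ℝ ∙ u)) x
  rw [Submodule.starProjection_unit_singleton ℝ hu] at h
  rw [add_comm]
  exact h

lemma norm_proj_le (u x : E3) : ‖proj u x‖ ≤ ‖x‖ :=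
  ((plane u).norm_orthogonalProjectionOnto_apply_le x)

lemma proj_coe {u : E3} (y : plane u) : proj u (y : E3) = y :=
  (plane u).orthogonalProjectionOnto_mem_subspace_eq_self y

lemma measurableSet_fib {u : E3} {S : Set E3} (hS : MeasurableSet S) (y : plane u) :
    MeasurableSet (fib u S y) := by
  have : Continuous fun t : ℝ => (y : E3) + t • u := by fun_prop
  exact hS.preimage this.measurable

lemma volume_eq_lintegral_fib {u : E3} (hu : ‖u‖ = 1) {S : Set E3} (hS : MeasurableSet S) :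
    volume S = ∫⁻ y : plane u, volume (fib u S y) := by
  have h := lintegral_split hu (S.indicator fun _ => (1 : ℝ≥0∞)) (measurable_const.indicator hS)
  rw [lintegral_indicator_const hS, one_mul] at h
  rw [h]
  refine lintegral_congr fun y => ?_
  have : (fun t : ℝ => S.indicator (fun _ => (1 : ℝ≥0∞)) ((y : E3) + t • u))
      = (fib u S y).indicator (fun _ => 1) := by
    funext t
    by_cases h : (y : E3) + t • u ∈ S
    · rw [indicator_of_mem h, indicator_of_mem (show t ∈ fib u S y from h)]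
    · rw [indicator_of_notMem h, indicator_of_notMem (show t ∉ fib u S y from h)]
  rw [this, lintegral_indicator_const (measurableSet_fib hS y), one_mul]

/-- A normalised convex body. -/
structure Nice (K : Set E3) : Prop where
  conv : Convex ℝ K
  cpt : IsCompact K
  inner : closedBall (0 : E3) (1 / 30) ⊆ K
  outer : K ⊆ closedBall (0 : E3) 1

namespace Nice

variable {K : Set E3}

lemma zero_mem (h : Nice K) : (0 : E3) ∈ K := h.inner (mem_closedBall_self (by norm_num))

lemma norm_le (h : Nice K) {x : E3} (hx : x ∈ K) : ‖x‖ ≤ 1 := by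
  simpa using h.outer hx

lemma ball_mem (h : Nice K) {x : E3} (hx : ‖x‖ ≤ 1 / 30) : x ∈ K :=
  h.inner (by simpa using hx)

lemma nhds (h : Nice K) : K ∈ nhds (0 : E3) :=
  Filter.mem_of_superset (closedBall_mem_nhds _ (by norm_num)) h.inner

lemma vol_ne_top (h : Nice K) : volume K ≠ ⊤ := h.cpt.measure_lt_top.ne

lemma meas (h : Nice K) : MeasurableSet K := h.cpt.measurableSet

lemma inner_normal_ge (h : Nice K) {n : E3} (hn : ‖n‖ = 1) {a : ℝ}
    (ha : ∀ z ∈ K, ⟪n, z⟫ ≤ a) : 1 / 30 ≤ a := by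
  have := ha _ (h.ball_mem (x := (1 / 30 : ℝ) • n) (by rw [norm_smul, hn]; norm_num))
  rwa [inner_smul_right, real_inner_self_eq_norm_sq, hn, one_pow, mul_one] at this

end Nice

/-- The supporting halfspace with normal `n` is within `η` of `x`. -/
def Slack (K : Set E3) (n x : E3) (η : ℝ) : Prop := ∀ z ∈ K, ⟪n, z - x⟫ ≤ η

/-- Points of `K` within `η` of two supporting planes with normals at least `1/100` apart. -/
def Sharp (K : Set E3) (η : ℝ) : Set E3 :=
  {x | x ∈ K ∧ ∃ n n' : E3, ‖n‖ = 1 ∧ ‖n'‖ = 1 ∧ 1 / 100 ≤ ‖n - n'‖ ∧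
    Slack K n x η ∧ Slack K n' x η}

lemma isCompact_sharp {K : Set E3} (hK : IsCompact K) (η : ℝ) : IsCompact (Sharp K η) := by
  let A : Set (E3 × E3 × E3) := K ×ˢ (sphere (0 : E3) 1 ×ˢ sphere (0 : E3) 1)
  let C : Set (E3 × E3 × E3) := {p | 1 / 100 ≤ ‖p.2.1 - p.2.2‖} ∩
    ((⋂ z ∈ K, {p | ⟪p.2.1, z - p.1⟫ ≤ η}) ∩ ⋂ z ∈ K, {p | ⟪p.2.2, z - p.1⟫ ≤ η})
  have hC : IsClosed C := by
    refine (isClosed_le (by fun_prop) (by fun_prop)).inter (IsClosed.inter ?_ ?_) <;>
      exact isClosed_biInter fun z _ => isClosed_le (by fun_prop) (by fun_prop)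
  have hA : IsCompact A := hK.prod ((isCompact_sphere _ _).prod (isCompact_sphere _ _))
  have heq : Sharp K η = Prod.fst '' (A ∩ C) := by
    ext x
    simp only [A, C, Sharp, Slack, mem_setOf_eq, mem_image, mem_inter_iff, mem_prod,
      mem_sphere_zero_iff_norm, mem_iInter, Prod.exists]
    constructor
    · rintro ⟨hx, n, n', h1, h2, h3, h4, h5⟩
      exact ⟨x, n, n', ⟨⟨hx, h1, h2⟩, h3, h4, h5⟩, rfl⟩
    · rintro ⟨a, n, n', ⟨⟨hx, h1, h2⟩, h3, h4, h5⟩, rfl⟩
      exact ⟨hx, n, n', h1, h2, h3, h4, h5⟩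
  rw [heq]
  exact (hA.inter_right hC).image continuous_fst

lemma exists_normal {K : Set E3} (hK : Nice K) {b : E3} (hb : b ∉ interior K) :
    ∃ n : E3, ‖n‖ = 1 ∧ ∀ z ∈ K, ⟪n, z⟫ ≤ ⟪n, b⟫ := by
  obtain ⟨f, hf⟩ := geometric_hahn_banach_open_point hK.conv.interior isOpen_interior hb
  set v : E3 := (InnerProductSpace.toDual ℝ E3).symm f with hv
  have hfv : ∀ x, f x = ⟪v, x⟫ := fun x => (InnerProductSpace.toDual_symm_apply).symm
  have hint : (interior K).Nonempty := ⟨0, mem_interior_iff_mem_nhds.2 hK.nhds⟩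
  have hv0 : v ≠ 0 := by
    rintro h
    obtain ⟨a, ha⟩ := hint
    have := hf a ha
    rw [hfv, hfv, h] at this
    simp at this
  refine ⟨‖v‖⁻¹ • v, norm_smul_inv_norm hv0, fun z hz => ?_⟩
  have hle : ⟪v, z⟫ ≤ ⟪v, b⟫ := by
    have hsub : closure (interior K) ⊆ {z | ⟪v, z⟫ ≤ ⟪v, b⟫} :=
      closure_minimal (fun a ha => by
        have := hf a ha
        rw [hfv, hfv] at this
        exact this.le) (isClosed_le (by fun_prop) (by fun_prop))
    refine hsub ?_
    rw [hK.conv.closure_interior_eq_closure_of_nonempty_interior hint]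
    exact subset_closure hz
  rw [real_inner_smul_left, real_inner_smul_left]
  exact mul_le_mul_of_nonneg_left hle (by positivity)

/-- A unit vector orthogonal to two given vectors. -/
lemma exists_unit_orthogonal (a b : E3) : ∃ d : E3, ‖d‖ = 1 ∧ ⟪a, d⟫ = 0 ∧ ⟪b, d⟫ = 0 := by
  obtain ⟨w, hw, hw0⟩ : ∃ w : E3, w ∈ (Submodule.span ℝ ({a, b} : Set E3))ᗮ ∧ w ≠ 0 := by
    by_contra h
    push Not at h
    have h2 : (Submodule.span ℝ ({a, b} : Set E3))ᗮ = ⊥ := (Submodule.eq_bot_iff _).2 h
    have h3 := Submodule.finrank_add_finrank_orthogonal (Submodule.span ℝ ({a, b} : Set E3))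
    rw [h2, finrank_bot, add_zero, finrank_euclideanSpace_fin] at h3
    have h4 := finrank_span_finset_le_card (R := ℝ) ({a, b} : Finset E3)
    rw [Set.finrank, Finset.coe_pair, h3] at h4
    exact absurd (h4.trans Finset.card_le_two) (by norm_num)
  refine ⟨‖w‖⁻¹ • w, norm_smul_inv_norm hw0, ?_, ?_⟩ <;>
    rw [inner_smul_right, Submodule.inner_right_of_mem_orthogonal
      (Submodule.subset_span (by simp)) hw, mul_zero]

end Vale.Agent.P243.Improve
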