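import Vale.Agent.P243.Improve.Basic

/-!
# P243, improved lower bound: the cone function of a shadow about one of its points
-/

open MeasureTheory Set Metric
open scoped RealInnerProductSpace ENNReal Pointwise

namespace Vale.Agent.P243.Improve

variable {F : Type*} [NormedAddCommGroup F] [InnerProductSpace ℝ F]

/-- Admissible heights at `y` of the cone over `S` with apex above `y0`. -/
def coneSet (S : Set F) (y0 y : F) : Set ℝ :=
  {l | l ∈ Icc (0 : ℝ) 1 ∧ ∃ b ∈ S, l • y0 + (1 - l) • b = y}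

/-- The height at `y` of the cone over `S` with apex above `y0`, of height one. -/
noncomputable def coneFn (S : Set F) (y0 y : F) : ℝ := sSup (coneSet S y0 y)

lemma coneSet_isCompact {S : Set F} (hS : IsCompact S) (y0 y : F) :
    IsCompact (coneSet S y0 y) := by
  let A : Set (ℝ × F) := Icc (0 : ℝ) 1 ×ˢ S
  have h : coneSet S y0 y = Prod.fst '' (A ∩ {p | p.1 • y0 + (1 - p.1) • p.2 = y}) := by
    ext l
    simp [coneSet, A, and_assoc]
  rw [h]
  exact ((isCompact_Icc.prod hS).inter_right
    (isClosed_eq (by fun_prop) continuous_const)).image continuous_fst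

lemma zero_mem_coneSet {S : Set F} {y0 y : F} (hy : y ∈ S) : (0 : ℝ) ∈ coneSet S y0 y :=
  ⟨⟨le_rfl, zero_le_one⟩, y, hy, by simp⟩

lemma coneFn_spec {S : Set F} (hS : IsCompact S) {y0 y : F} (hy : y ∈ S) :
    coneFn S y0 y ∈ Icc (0 : ℝ) 1 ∧
      ∃ b ∈ S, coneFn S y0 y • y0 + (1 - coneFn S y0 y) • b = y :=
  (coneSet_isCompact hS y0 y).sSup_mem ⟨0, zero_mem_coneSet hy⟩

lemma coneFn_eq_zero {S : Set F} (hc : Convex ℝ S) {y0 y : F} (hy0 : y0 ∈ S) (hy : y ∉ S) :
    coneFn S y0 y = 0 := by
  have : coneSet S y0 y = ∅ := by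
    refine eq_empty_iff_forall_notMem.2 ?_
    rintro l ⟨hl, b, hb, rfl⟩
    exact hy (hc hy0 hb hl.1 (by linarith [hl.2]) (by ring))
  simp [coneFn, this]

lemma coneFn_nonneg {S : Set F} (y0 y : F) : 0 ≤ coneFn S y0 y :=
  Real.sSup_nonneg fun _ hl => hl.1.1

lemma coneFn_le_one {S : Set F} (y0 y : F) : coneFn S y0 y ≤ 1 :=
  Real.sSup_le (fun _ hl => hl.1.2) zero_le_one

lemma setOf_le_coneFn {S : Set F} (hS : IsCompact S) (hc : Convex ℝ S) {y0 : F} (hy0 : y0 ∈ S)
    {l : ℝ} (hl0 : 0 < l) (hl1 : l ≤ 1) :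
    {y | l ≤ coneFn S y0 y} = AffineMap.homothety y0 (1 - l) '' S := by
  ext y
  constructor
  · intro hy
    have hyS : y ∈ S := by
      by_contra h
      rw [mem_setOf_eq, coneFn_eq_zero hc hy0 h] at hy
      linarith
    obtain ⟨⟨hk0, hk1⟩, b, hb, he⟩ := coneFn_spec hS (y0 := y0) hyS
    set k := coneFn S y0 y
    have hkl : l ≤ k := hy
    rcases eq_or_lt_of_le hl1 with h1 | h1
    · refine ⟨y0, hy0, ?_⟩
      have hk : k = 1 := le_antisymm hk1 (h1 ▸ hkl)
      rw [hk] at he
      simpa [AffineMap.homothety_apply, h1] using he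
    · refine ⟨((k - l) / (1 - l)) • y0 + ((1 - k) / (1 - l)) • b,
        hc hy0 hb (div_nonneg (by linarith) (by linarith)) (div_nonneg (by linarith) (by linarith))
          (by field_simp; ring), ?_⟩
      have hne : (1 : ℝ) - l ≠ 0 := by linarith
      rw [AffineMap.homothety_apply, vsub_eq_sub, vadd_eq_add, smul_sub, smul_add, smul_smul,
        smul_smul, mul_div_cancel₀ _ hne, mul_div_cancel₀ _ hne, ← he]
      module
  · rintro ⟨b, hb, rfl⟩
    refine le_csSup ⟨1, fun z (h : z ∈ coneSet S y0 _) => h.1.2⟩ ⟨⟨hl0.le, hl1⟩, b, hb, ?_⟩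
    rw [AffineMap.homothety_apply, vsub_eq_sub, vadd_eq_add]
    module

variable [MeasurableSpace F] [BorelSpace F]

lemma measurable_coneFn {S : Set F} (hS : IsCompact S) (hc : Convex ℝ S) {y0 : F} (hy0 : y0 ∈ S) :
    Measurable (coneFn S y0) := by
  refine measurable_of_Ici fun l => ?_
  rcases le_or_gt l 0 with h | h
  · convert MeasurableSet.univ
    exact eq_univ_of_forall fun y => h.trans (coneFn_nonneg y0 y)
  rcases le_or_gt l 1 with h1 | h1
  · have he : coneFn S y0 ⁻¹' Ici l = AffineMap.homothety y0 (1 - l) '' S :=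
      setOf_le_coneFn hS hc hy0 h h1
    rw [he]
    exact (hS.image (AffineMap.homothety_continuous _ _)).measurableSet
  · convert MeasurableSet.empty
    exact eq_empty_of_forall_notMem fun y hy =>
      absurd (show l ≤ coneFn S y0 y from hy) (by linarith [coneFn_le_one (S := S) y0 y])

/-- The cone over a planar convex set has one third of the volume of the cylinder. -/
lemma lintegral_coneFn [FiniteDimensional ℝ F] (hF : Module.finrank ℝ F = 2) {S : Set F}
    (hS : IsCompact S) (hc : Convex ℝ S) {y0 : F} (hy0 : y0 ∈ S) :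
    ∫⁻ y, ENNReal.ofReal (coneFn S y0 y) = ENNReal.ofReal (1 / 3) * volume S := by
  rw [lintegral_eq_lintegral_meas_le volume (Filter.Eventually.of_forall (coneFn_nonneg y0))
    (measurable_coneFn hS hc hy0).aemeasurable]
  have hval : ∀ l ∈ Ioi (0 : ℝ), volume {y | l ≤ coneFn S y0 y}
      = (Ioc (0 : ℝ) 1).indicator (fun t => ENNReal.ofReal ((1 - t) ^ 2) * volume S) l := by
    intro l hl
    rcases le_or_gt l 1 with h1 | h1
    · rw [indicator_of_mem (show l ∈ Ioc (0 : ℝ) 1 from ⟨hl, h1⟩), setOf_le_coneFn hS hc hy0 hl h1,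
        Measure.addHaar_image_homothety, hF, abs_pow, sq_abs]
    · rw [indicator_of_notMem (fun h : l ∈ Ioc (0 : ℝ) 1 => absurd h.2 (not_le.2 h1))]
      convert measure_empty (μ := (volume : Measure F))
      exact eq_empty_of_forall_notMem fun y hy =>
        absurd (show l ≤ coneFn S y0 y from hy) (by linarith [coneFn_le_one (S := S) y0 y])
  rw [setLIntegral_congr_fun measurableSet_Ioi hval, setLIntegral_indicator measurableSet_Ioc,
    inter_eq_self_of_subset_left Ioc_subset_Ioi_self,
    lintegral_mul_const' _ _ hS.measure_lt_top.ne]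
  congr 1
  have hint : IntegrableOn (fun t : ℝ => (1 - t) ^ 2) (Ioc 0 1) :=
    ((by fun_prop : Continuous fun t : ℝ => (1 - t) ^ 2).integrableOn_Icc).mono_set Ioc_subset_Icc_self
  rw [← ofReal_integral_eq_lintegral_ofReal hint
    (Filter.Eventually.of_forall fun t => sq_nonneg (1 - t)),
    ← intervalIntegral.integral_of_le zero_le_one,
    intervalIntegral.integral_comp_sub_left (fun t : ℝ => t ^ 2) 1, integral_pow]
  norm_num

end Vale.Agent.P243.Improve
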