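import Vale.Agent.P243.Improve.SharpVolume

/-!
# P243, improved lower bound: the covering measure of a normalised body
-/

open MeasureTheory Set Metric
open scoped RealInnerProductSpace ENNReal

namespace Vale.Agent.P243.Improve

variable {K : Set E3} {u : E3}

/-- The Rogers–Shephard inequality for one chord. -/
lemma area_mul_le (hK : Nice K) (hu : ‖u‖ = 1) (y0 : plane u) {α β : ℝ} (hαβ : α ≤ β)
    (hα : (y0 : E3) + α • u ∈ K) (hβ : (y0 : E3) + β • u ∈ K) :
    area u K * (β - α) ≤ 3 * (volume K).toReal := by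
  set S := proj u '' K with hS
  have hSc : IsCompact S := hK.cpt.image (proj u).continuous
  have hSv : Convex ℝ S := hK.conv.linear_image (proj u).toLinearMap
  have hy0 : y0 ∈ S := ⟨(y0 : E3) + β • u, hβ, proj_line y0 β⟩
  have hl0 : 0 ≤ β - α := sub_nonneg.2 hαβ
  have hpt : ∀ y, ENNReal.ofReal ((β - α) * coneFn S y0 y) ≤ volume (fib u K y) := by
    intro y
    by_cases hyS : y ∈ S
    swap
    · simp [coneFn_eq_zero hSv hy0 hyS]
    obtain ⟨⟨hk0, hk1⟩, bS, ⟨z0, hz0, hz0e⟩, hbe⟩ := coneFn_spec hSc (y0 := y0) hyS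
    set k := coneFn S y0 y
    have hye : (y : E3) = k • (y0 : E3) + (1 - k) • (bS : E3) := by
      rw [← Submodule.coe_smul, ← Submodule.coe_smul, ← Submodule.coe_add, hbe]
    have hz : z0 = (bS : E3) + ⟪u, z0⟫ • u := by rw [← hz0e, proj_decomp hu]
    have hmem : ∀ s, (y0 : E3) + s • u ∈ K → k * s + (1 - k) * ⟪u, z0⟫ ∈ fib u K y := by
      intro s hs
      show (y : E3) + _ • u ∈ K
      convert hK.conv hs hz0 hk0 (sub_nonneg.2 hk1) (add_sub_cancel _ _) using 1
      rw [hye]
      nth_rewrite 2 [hz]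
      module
    have hsub := (hK.fib_convex u y).segment_subset (hmem α hα) (hmem β hβ)
    rw [segment_eq_Icc (by linarith [mul_le_mul_of_nonneg_left hαβ hk0])] at hsub
    refine le_trans (le_of_eq ?_) (measure_mono hsub)
    rw [Real.volume_Icc]
    congr 1
    ring
  have h := lintegral_mono (μ := (volume : Measure (plane u))) hpt
  rw [← volume_eq_lintegral_fib hu hK.meas] at h
  simp_rw [ENNReal.ofReal_mul hl0] at h
  rw [lintegral_const_mul' _ _ ENNReal.ofReal_ne_top,
    lintegral_coneFn (finrank_plane hu) hSc hSv hy0] at h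
  have h' := ENNReal.toReal_mono hK.vol_ne_top h
  rw [ENNReal.toReal_mul, ENNReal.toReal_mul, ENNReal.toReal_ofReal hl0,
    ENNReal.toReal_ofReal (by norm_num)] at h'
  rw [area]
  linarith

/-- The unit disc. -/
noncomputable def disc : ℝ :=
  (volume (closedBall (0 : EuclideanSpace ℝ (Fin 2)) 1)).toReal

lemma area_ge (hK : Nice K) (hu : ‖u‖ = 1) : disc / 900 ≤ area u K := by
  have hsub : closedBall (0 : plane u) (1 / 30) ⊆ proj u '' K := fun y hy =>
    ⟨y, hK.inner (by simpa using hy), proj_coe y⟩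
  let o : OrthonormalBasis (Fin 2) ℝ (plane u) :=
    (stdOrthonormalBasis ℝ (plane u)).reindex (finCongr (finrank_plane hu))
  have h1 : volume (closedBall (0 : plane u) (1 / 30)) =
      ENNReal.ofReal ((1 / 30) ^ 2) * volume (closedBall (0 : EuclideanSpace ℝ (Fin 2)) 1) := by
    have h2 : closedBall (0 : plane u) (1 / 30) =
        o.repr ⁻¹' closedBall (0 : EuclideanSpace ℝ (Fin 2)) (1 / 30) := by
      ext z
      simp
    rw [h2, o.measurePreserving_repr.measure_preimage measurableSet_closedBall.nullMeasurableSet,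
      Measure.addHaar_closedBall' _ _ (by norm_num), finrank_euclideanSpace_fin]
  have h := ENNReal.toReal_mono (hK.cpt.image (proj u).continuous).measure_lt_top.ne
    (measure_mono (μ := volume) hsub)
  rw [h1, ENNReal.toReal_mul, ENNReal.toReal_ofReal (by norm_num)] at h
  rw [area, disc]
  linarith

/-- A set whose line integrals certify more than one third. -/
theorem exists_good_set : ∃ δ : ℝ, 0 < δ ∧ δ < 1 ∧ ∀ K, Nice K →
    ∃ G : Set E3, MeasurableSet G ∧ G ⊆ K ∧ 0 < (volume G).toReal ∧
      ∀ u : E3, ‖u‖ = 1 → ∀ y : plane u,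
        area u K * (volume (fib u G y)).toReal ≤ (3 - δ) * (volume G).toReal := by
  obtain ⟨C, hC, hCN⟩ := volume_sharp
  set V1 := (volume (closedBall (0 : E3) 1)).toReal with hV1
  set V30 := (volume (closedBall (0 : E3) (1 / 30))).toReal with hV30
  have hV10 : 0 < V1 := ENNReal.toReal_pos (measure_closedBall_pos _ _ one_pos).ne'
    measure_closedBall_lt_top.ne
  have hV300 : 0 < V30 := ENNReal.toReal_pos (measure_closedBall_pos _ _ (by norm_num)).ne'
    measure_closedBall_lt_top.ne
  have hD : 0 < disc := ENNReal.toReal_pos (measure_closedBall_pos _ _ one_pos).ne'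
    measure_closedBall_lt_top.ne
  have hlam := lam_pos
  obtain ⟨w, hw, hw1, hw2, hw3, hw4, hw5⟩ : ∃ w : ℝ, 0 < w ∧ w ≤ 1 / 500 ∧
      12 * lam * C * w ≤ 1 ∧ 10800 * C * w ≤ disc ∧ 2 * C * w ≤ V30 ∧ 6 * C * w ≤ V1 := by
    refine ⟨min (min (1 / 500) (1 / (12 * lam * C)))
      (min (disc / (10800 * C)) (min (V30 / (2 * C)) (V1 / (6 * C)))), by positivity,
      (min_le_left _ _).trans (min_le_left _ _), ?_, ?_, ?_, ?_⟩
    · rw [mul_comm, ← le_div_iff₀ (by positivity)]
      exact (min_le_left _ _).trans (min_le_right _ _)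
    · rw [mul_comm, ← le_div_iff₀ (by positivity)]
      exact (min_le_right _ _).trans (min_le_left _ _)
    · rw [mul_comm, ← le_div_iff₀ (by positivity)]
      exact (min_le_right _ _).trans ((min_le_right _ _).trans (min_le_left _ _))
    · rw [mul_comm, ← le_div_iff₀ (by positivity)]
      exact (min_le_right _ _).trans ((min_le_right _ _).trans (min_le_right _ _))
  have hw32 : w ^ 3 ≤ w := pow_le_of_le_one hw.le (by linarith) (by norm_num)
  refine ⟨3 * C * w ^ 3 / V1, by positivity, ?_, fun K hK => ?_⟩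
  · rw [div_lt_one hV10]
    nlinarith
  set V := (volume K).toReal with hV
  set vN := (volume (Sharp K (w ^ 2))).toReal with hvN
  have hN : vN ≤ C * w ^ 3 := hCN K hK w hw hw1
  have hNm := (isCompact_sharp hK.cpt (w ^ 2)).measurableSet
  have hNK : Sharp K (w ^ 2) ⊆ K := fun x hx => hx.1
  set G := K \ Sharp K (w ^ 2) with hG
  have hvG : (volume G).toReal = V - vN := by
    rw [hG, measure_sdiff hNK hNm.nullMeasurableSet (measure_ne_top_of_subset hNK hK.vol_ne_top),
      ENNReal.toReal_sub_of_le (measure_mono hNK) hK.vol_ne_top]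
  have hVge : V30 ≤ V := ENNReal.toReal_mono hK.vol_ne_top (measure_mono hK.inner)
  have hVle : V ≤ V1 := ENNReal.toReal_mono measure_closedBall_lt_top.ne (measure_mono hK.outer)
  have hvN0 : 0 ≤ vN := ENNReal.toReal_nonneg
  refine ⟨G, hK.meas.diff hNm, fun x hx => hx.1, by rw [hvG]; nlinarith, fun u hu y => ?_⟩
  rw [hvG]
  have hrhs : 3 * (V - vN) - 3 * C * w ^ 3 ≤ (3 - 3 * C * w ^ 3 / V1) * (V - vN) := by
    have : 3 * C * w ^ 3 / V1 * (V - vN) ≤ 3 * C * w ^ 3 := by
      rw [div_mul_eq_mul_div, div_le_iff₀ hV10]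
      exact mul_le_mul_of_nonneg_left (by linarith) (by positivity)
    linarith
  refine le_trans ?_ hrhs
  set P := area u K with hP
  have hP0 : 0 ≤ P := ENNReal.toReal_nonneg
  have hmain : 0 ≤ 3 * (V - vN) - 3 * C * w ^ 3 := by nlinarith
  rcases (fib u K y).eq_empty_or_nonempty with he | hne
  · have : fib u G y = ∅ := subset_eq_empty (fun t ht => ht.1) he
    simpa [this] using hmain
  have hFc : IsCompact (fib u K y) := by
    refine (isCompact_Icc (a := -‖(y : E3)‖ - 1) (b := ‖(y : E3)‖ + 1)).of_isClosed_subset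
      (hK.cpt.isClosed.preimage (by fun_prop)) fun t ht => abs_le.1 ?_ |>.imp (by intro; linarith) id
    have h1 := hK.norm_le ht
    have h2 : ‖t • u‖ ≤ ‖(y : E3) + t • u‖ + ‖(y : E3)‖ := by
      simpa using norm_sub_le ((y : E3) + t • u) (y : E3)
    rw [norm_smul, hu, mul_one, Real.norm_eq_abs] at h2
    linarith
  set α := sInf (fib u K y)
  set β := sSup (fib u K y)
  have hα : α ∈ fib u K y := hFc.sInf_mem hne
  have hβ : β ∈ fib u K y := hFc.sSup_mem hne
  have hαβ : α ≤ β := csInf_le hFc.bddBelow hβ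
  have hsubI : fib u G y ⊆ Icc α β := fun t ht =>
    ⟨csInf_le hFc.bddBelow ht.1, le_csSup hFc.bddAbove ht.1⟩
  have hlen : ∀ a b : ℝ, a ≤ b → fib u G y ⊆ Icc a b → (volume (fib u G y)).toReal ≤ b - a := by
    intro a b hab h
    have := ENNReal.toReal_mono measure_Icc_lt_top.ne (measure_mono (μ := (volume : Measure ℝ)) h)
    rwa [Real.volume_Icc, ENNReal.toReal_ofReal (sub_nonneg.2 hab)] at this
  set ε := 6 * C * w ^ 3 with hε
  rcases le_or_gt ε (3 * V - P * (β - α)) with hcase | hcase
  · have := mul_le_mul_of_nonneg_left (hlen α β hαβ hsubI) hP0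
    rw [hε] at hcase
    nlinarith
  have hGle : lam * ε ≤ w ^ 2 / 2 := by
    rw [hε]
    nlinarith [mul_le_mul_of_nonneg_right hw2 (sq_nonneg w)]
  have hsm : lam * ε ≤ 1 := by nlinarith
  have hshift : ∀ e t : ℝ, e ∈ fib u K y → t ∈ fib u K y → |e - t| ≤ w ^ 2 / 2 →
      (y : E3) + e • u ∈ Sharp K (lam * ε) → t ∉ fib u G y := by
    intro e t _ ht hd ⟨_, n, n', hn, hn', hsep, hs, hs'⟩ hmem
    refine hmem.2 ⟨ht, n, n', hn, hn', hsep, ?_, ?_⟩
    all_goals intro z hz
    all_goals
      rw [show z - ((y : E3) + t • u) = (z - ((y : E3) + e • u)) + (e - t) • u by module,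
        inner_add_right, real_inner_smul_right]
    · have h1 := hs z hz
      have h2 : (e - t) * ⟪n, u⟫ ≤ |e - t| := by
        refine (le_abs_self _).trans ?_
        rw [abs_mul]
        exact mul_le_of_le_one_right (abs_nonneg _)
          ((abs_real_inner_le_norm n u).trans (by rw [hn, hu, one_mul]))
      linarith
    · have h1 := hs' z hz
      have h2 : (e - t) * ⟪n', u⟫ ≤ |e - t| := by
        refine (le_abs_self _).trans ?_
        rw [abs_mul]
        exact mul_le_of_le_one_right (abs_nonneg _)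
          ((abs_real_inner_le_norm n' u).trans (by rw [hn', hu, one_mul]))
      linarith
  have hfin : P * (volume (fib u G y)).toReal ≤ max 0 (P * (β - α) - P * (w ^ 2 / 2)) := by
    rcases le_or_gt (β - α) (w ^ 2 / 2) with hshort | hlong
    · have : fib u G y = ∅ := by
        refine eq_empty_of_forall_notMem fun t ht => ?_
        have h := hsubI ht
        rcases chord_end_sharp hK hu y hαβ hα hβ (by positivity) hsm hcase.le with hs | hs
        · exact hshift α t hα ht.1 (abs_le.2 ⟨by linarith [h.2], by linarith [h.1, sq_nonneg w]⟩) hs ht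
        · exact hshift β t hβ ht.1 (abs_le.2 ⟨by linarith [h.2, sq_nonneg w], by linarith [h.1]⟩) hs ht
      simp [this]
    · refine le_trans ?_ (le_max_right _ _)
      rw [← mul_sub]
      refine mul_le_mul_of_nonneg_left ?_ hP0
      rcases chord_end_sharp hK hu y hαβ hα hβ (by positivity) hsm hcase.le with hs | hs
      · refine le_trans (hlen (α + w ^ 2 / 2) β (by linarith) fun t ht => ⟨?_, (hsubI ht).2⟩)
          (by linarith)
        by_contra hlt
        exact hshift α t hα ht.1 (abs_le.2 ⟨by linarith, by linarith [(hsubI ht).1, sq_nonneg w]⟩)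
          hs ht
      · refine le_trans (hlen α (β - w ^ 2 / 2) (by linarith) fun t ht => ⟨(hsubI ht).1, ?_⟩)
          (by linarith)
        by_contra hlt
        exact hshift β t hβ ht.1 (abs_le.2 ⟨by linarith [(hsubI ht).2, sq_nonneg w], by linarith⟩)
          hs ht
  refine hfin.trans (max_le hmain ?_)
  have h1 : P * (β - α) ≤ 3 * V := area_mul_le hK hu y hαβ hα hβ
  have h2 := mul_le_mul_of_nonneg_right (area_ge hK hu) (show (0 : ℝ) ≤ w ^ 2 / 2 by positivity)
  have h3 := mul_le_mul_of_nonneg_right hw3 (sq_nonneg w)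
  nlinarith

end Vale.Agent.P243.Improve
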