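import Vale.Agent.P243.Improve.Basic

/-!
# P243, improved lower bound: every body is an affine image of a normalised one
-/

open MeasureTheory Set Metric
open scoped RealInnerProductSpace ENNReal

namespace Vale.Agent.P243.Improve

theorem exists_nice (K : Set E3) (hc : Convex ℝ K) (hk : IsCompact K)
    (hi : (interior K).Nonempty) :
    ∃ (A : E3 ≃ₗ[ℝ] E3) (c : E3) (K0 : Set E3), Nice K0 ∧ K = (fun x => c + A x) '' K0 := by
  obtain ⟨c0, hc0⟩ := hi
  obtain ⟨r, hr, hball⟩ := Metric.isOpen_iff.1 isOpen_interior c0 hc0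
  let e : Module.Basis (Fin 3) ℝ E3 := (EuclideanSpace.basisFun (Fin 3) ℝ).toBasis
  let f : E3 × (Fin 3 → E3) → ℝ := fun p => |e.det fun i => p.2 i - p.1|
  have hf : Continuous f := by
    refine continuous_abs.comp ?_
    have : Continuous fun p : E3 × (Fin 3 → E3) =>
        (Matrix.of fun i j => (p.2 j - p.1) i : Matrix (Fin 3) (Fin 3) ℝ).det :=
      Continuous.matrix_det (continuous_matrix fun i j => by fun_prop)
    convert this using 2 with p
    rw [Module.Basis.det_apply]
    congr 1
  set D : Set (E3 × (Fin 3 → E3)) := K ×ˢ Set.univ.pi fun _ => K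
  have hD : IsCompact D := hk.prod (isCompact_univ_pi fun _ => hk)
  have hc0K : c0 ∈ K := interior_subset hc0
  have hmem : (c0, fun i => c0 + (r / 2) • e i) ∈ D := by
    refine ⟨hc0K, fun i _ => interior_subset (hball ?_)⟩
    rw [mem_ball, dist_eq_norm]
    simp only [add_sub_cancel_left, e, OrthonormalBasis.coe_toBasis, norm_smul,
      OrthonormalBasis.norm_eq_one, mul_one, Real.norm_eq_abs, abs_of_pos (half_pos hr)]
    linarith
  obtain ⟨⟨p0, p⟩, ⟨hp0, hp⟩, hmax⟩ := hD.exists_isMaxOn ⟨_, hmem⟩ hf.continuousOn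
  set v : Fin 3 → E3 := fun i => p i - p0 with hv
  have hpos : 0 < |e.det v| := by
    refine lt_of_lt_of_le ?_ (hmax hmem)
    show 0 < |e.det fun i => c0 + (r / 2) • e i - c0|
    simp only [add_sub_cancel_left]
    rw [show (fun i => (r / 2) • e i) = fun i => (fun _ : Fin 3 => r / 2) i • e i from rfl,
      AlternatingMap.map_smul_univ, e.det_self]
    simp [hr.ne']
  have hli : LinearIndependent ℝ v ∧ Submodule.span ℝ (Set.range v) = ⊤ :=
    (Module.Basis.is_basis_iff_det e).2 (isUnit_iff_ne_zero.2 (abs_pos.1 hpos))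
  let b : Module.Basis (Fin 3) ℝ E3 := Module.Basis.mk hli.1 hli.2.ge
  have hbv : ∀ i, b i = v i := fun i => by simp [b]
  let L : E3 ≃ₗ[ℝ] E3 := e.equiv b (Equiv.refl _)
  have hL : ∀ ξ : E3, L ξ = ∑ i, ξ i • v i := by
    intro ξ
    conv_lhs => rw [← e.sum_repr ξ]
    rw [map_sum]
    refine Finset.sum_congr rfl fun i _ => ?_
    rw [map_smul, Module.Basis.equiv_apply, Equiv.refl_apply, hbv]
    simp [e]
  have hcoef : ∀ x ∈ K, ∀ i, |(L.symm (x - p0)) i| ≤ 1 := by
    intro x hx i
    set ξ := L.symm (x - p0) with hξ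
    have hsum : x - p0 = ∑ j, ξ j • v j := by rw [← hL, hξ, L.apply_symm_apply]
    have hmem' : (p0, Function.update p i x) ∈ D := by
      refine ⟨hp0, fun j _ => ?_⟩
      by_cases h : j = i
      · subst h; simpa using hx
      · simp only [Function.update_of_ne h]; exact hp j (mem_univ j)
    have h1 := hmax hmem'
    simp only [f, mem_setOf_eq] at h1
    have h2 : (fun j => Function.update p i x j - p0) = Function.update v i (x - p0) := by
      funext j
      by_cases h : j = i
      · subst h; simp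
      · simp [Function.update_of_ne h, hv]
    rw [h2, hsum, AlternatingMap.map_update_sum, Finset.sum_eq_single i (fun j _ hji => ?_)
      (fun h => absurd (Finset.mem_univ i) h)] at h1
    · rw [AlternatingMap.map_update_smul, Function.update_eq_self, smul_eq_mul, abs_mul] at h1
      exact le_of_mul_le_mul_right (by linarith) hpos
    · rw [AlternatingMap.map_update_smul, e.det.map_update_self v hji.symm, smul_zero]
  let g : E3 := !₂[(1 / 4 : ℝ), 1 / 4, 1 / 4]
  have hgi : ∀ i, g i = 1 / 4 := fun i => by fin_cases i <;> simp [g]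
  let A : E3 ≃ₗ[ℝ] E3 := (LinearEquiv.smulOfNeZero ℝ E3 (3 : ℝ) (by norm_num)).trans L
  set c := p0 + L g with hc'
  set K0 := (fun x => c + A x) ⁻¹' K with hK0
  have hAx : ∀ x, c + A x = p0 + L (g + (3 : ℝ) • x) := fun x => by
    simp only [hc', A, LinearEquiv.trans_apply, LinearEquiv.smulOfNeZero_apply, map_add, map_smul]
    abel
  have hsurj : Function.Surjective fun x => c + A x := fun y =>
    ⟨A.symm (y - c), by simp⟩
  have hKeq : K = (fun x => c + A x) '' K0 := (Set.image_preimage_eq K hsurj).symm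
  refine ⟨A, c, K0, ⟨?_, ?_, ?_, ?_⟩, hKeq⟩
  · intro x hx y hy a b ha hb hab
    show c + A (a • x + b • y) ∈ K
    convert hc hx hy ha hb hab using 1
    obtain rfl : b = 1 - a := by linarith
    simp only [map_add, map_smul]
    module
  · have : K0 = (fun y => A.symm (y - c)) '' K := by
      ext x
      constructor
      · intro hx; exact ⟨_, hx, by simp⟩
      · rintro ⟨y, hy, rfl⟩; simpa [hK0] using hy
    rw [this]
    exact hk.image (A.symm.toLinearMap.continuous_of_finiteDimensional.comp
      (continuous_id.sub continuous_const))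
  · intro x hx
    rw [mem_closedBall_zero_iff] at hx
    show c + A x ∈ K
    rw [hAx, hL]
    have hcoord : ∀ i, |x i| ≤ 1 / 30 := fun i => (by simpa using (PiLp.norm_apply_le x i).trans hx)
    set a := fun i => (g + (3 : ℝ) • x) i with ha
    have hai : ∀ i, a i = 1 / 4 + 3 * x i := fun i => by simp [ha, hgi i]
    have h0 : ∀ i, 0 ≤ a i := fun i => by rw [hai]; linarith [(abs_le.1 (hcoord i)).1]
    have hs : a 0 + a 1 + a 2 ≤ 1 := by
      simp only [hai]
      have h3 : x 0 + x 1 + x 2 ≤ 3 * (1 / 30) := by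
        linarith [(abs_le.1 (hcoord 0)).2, (abs_le.1 (hcoord 1)).2, (abs_le.1 (hcoord 2)).2]
      have h4 : x 0 + x 1 + x 2 ≤ 1 / 12 := by
        have hn : x 0 ^ 2 + x 1 ^ 2 + x 2 ^ 2 ≤ (1 / 30) ^ 2 := by
          have h := pow_le_pow_left₀ (norm_nonneg x) hx 2
          rw [EuclideanSpace.norm_sq_eq, Fin.sum_univ_three] at h
          simpa using h
        nlinarith [sq_nonneg (x 0 - x 1), sq_nonneg (x 1 - x 2), sq_nonneg (x 0 - x 2),
          sq_nonneg (x 0 + x 1 + x 2 - 1 / 12)]
      linarith
    have hmemK : ∀ i, p i ∈ K := fun i => hp i (mem_univ i)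
    have key := hc.sum_mem (t := Finset.univ) (z := ![p0, p 0, p 1, p 2])
      (w := ![1 - (a 0 + a 1 + a 2), a 0, a 1, a 2])
      (fun i _ => by fin_cases i <;> simp [h0, sub_nonneg.2 hs])
      (by simp [Fin.sum_univ_four]; ring)
      (fun i _ => by fin_cases i <;> simp [hp0, hmemK])
    simp only [Fin.sum_univ_four, Matrix.cons_val_zero, Matrix.cons_val_one, Matrix.cons_val] at key
    convert key using 1
    simp only [Fin.sum_univ_three, hv, ha]
    module
  · intro x hx
    have h1 : ∀ i, |1 / 4 + 3 * x i| ≤ 1 := fun i => by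
      have := hcoef _ hx i
      rwa [show (fun x => c + A x) x = c + A x from rfl, hAx, add_sub_cancel_left, L.symm_apply_apply, PiLp.add_apply, PiLp.smul_apply, hgi,
        smul_eq_mul] at this
    rw [mem_closedBall_zero_iff]
    have hsq : ∀ i, x i ^ 2 ≤ 25 / 144 := fun i => by
      obtain ⟨h2, h3⟩ := abs_le.1 (h1 i)
      nlinarith
    have h := EuclideanSpace.norm_sq_eq x
    rw [Fin.sum_univ_three] at h
    simp only [Real.norm_eq_abs, sq_abs] at h
    nlinarith [hsq 0, hsq 1, hsq 2, norm_nonneg x]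

end Vale.Agent.P243.Improve
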