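import Vale.Agent.P243.Improve.GoodBody
import Vale.Agent.P243.Improve.Normalise

/-!
# P243, improved lower bound: affine transfer and the covering inequality
-/

open MeasureTheory Set Metric
open scoped RealInnerProductSpace ENNReal

namespace Vale.Agent.P243.Improve

open Vale.Agent.P243

/-- The induced map between planes orthogonal to a direction and its preimage direction. -/
noncomputable def planeMap (A : E3 ≃ₗ[ℝ] E3) (u u0 : E3) : plane u →L[ℝ] plane u0 :=
  (proj u0).comp ((LinearMap.toContinuousLinearMap (A.symm : E3 →ₗ[ℝ] E3)).comp (plane u).subtypeL)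

lemma planeMap_apply (A : E3 ≃ₗ[ℝ] E3) (u u0 : E3) (w : plane u) :
    planeMap A u u0 w = proj u0 (A.symm (w : E3)) := rfl

section

variable (A : E3 ≃ₗ[ℝ] E3) {u u0 : E3} {s : ℝ}

lemma symm_line (hAu : A.symm u = s • u0) (w : plane u) (t : ℝ) :
    A.symm ((w : E3) + t • u) = A.symm (w : E3) + (t * s) • u0 := by
  rw [map_add, map_smul, hAu, smul_smul]

lemma image_shadow (hu : ‖u‖ = 1) (hu0 : ‖u0‖ = 1) (hs : 0 < s) (hAu : A.symm u = s • u0) (c : E3) (K0 : Set E3) :
    proj u '' ((fun x => c + A x) '' K0) =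
      (fun y => y + -proj u c) ⁻¹' (planeMap A u u0 ⁻¹' (proj u0 '' K0)) := by
  have hA0 : A u0 = s⁻¹ • u := by
    rw [eq_inv_smul_iff₀ hs.ne', ← map_smul, ← hAu, A.apply_symm_apply]
  ext y
  simp only [mem_preimage, mem_image, planeMap_apply]
  constructor
  · rintro ⟨_, ⟨x, hx, rfl⟩, rfl⟩
    refine ⟨x, hx, ?_⟩
    rw [map_add, add_neg_cancel_comm]
    have h := proj_decomp hu (A x)
    have h2 : A.symm (proj u (A x) : E3) = x - (⟪u, A x⟫ * s) • u0 := by
      have h3 := congrArg A.symm h
      rw [symm_line A hAu, A.symm_apply_apply] at h3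
      exact eq_sub_of_add_eq h3
    rw [h2, map_sub, map_smul, proj,
      Submodule.orthogonalProjectionOnto_orthogonalComplement_singleton_eq_zero, smul_zero, sub_zero]
  · rintro ⟨x, hx, hxe⟩
    refine ⟨_, ⟨x, hx, rfl⟩, ?_⟩
    set w := y + -proj u c with hw
    have h := proj_decomp hu0 (A.symm (w : E3))
    rw [← hxe] at h
    have h2 : x = A.symm (w : E3) + (⟪u0, x⟫ - ⟪u0, A.symm (w : E3)⟫) • u0 := by
      linear_combination (norm := module) h - proj_decomp hu0 x
    rw [map_add, h2, map_add, map_smul, A.apply_symm_apply, hA0, smul_smul, proj_line, hw]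
    abel

lemma volume_shadow (hu : ‖u‖ = 1) (hu0 : ‖u0‖ = 1) (hs : 0 < s) (hAu : A.symm u = s • u0)
    {B : Set (plane u0)} (hB : MeasurableSet B) :
    volume (planeMap A u u0 ⁻¹' B) =
      ENNReal.ofReal (s * |LinearMap.det (A : E3 →ₗ[ℝ] E3)|) * volume B := by
  set Z : Set E3 := {x | proj u0 x ∈ B ∧ ⟪u0, x⟫ ∈ Icc (0 : ℝ) 1} with hZ
  have hZm : MeasurableSet Z :=
    (hB.preimage (proj u0).continuous.measurable).inter
      (measurableSet_Icc.preimage (by fun_prop : Continuous fun x : E3 => ⟪u0, x⟫).measurable)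
  have hvZ : volume Z = volume B := by
    rw [volume_eq_lintegral_fib hu0 hZm, ← lintegral_indicator_one hB]
    refine lintegral_congr fun y => ?_
    by_cases hy : y ∈ B
    · rw [indicator_of_mem hy]
      have : fib u0 Z y = Icc (0 : ℝ) 1 := by
        ext t
        simp only [fib, hZ, mem_setOf_eq, proj_line, hy, true_and, inner_add_right,
          real_inner_smul_right, real_inner_self_eq_norm_sq, hu0]
        rw [real_inner_comm, coe_mem_plane]
        simp
      simp [this]
    · rw [indicator_of_notMem hy]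
      have : fib u0 Z y = ∅ := eq_empty_of_forall_notMem fun t ht => hy (by
        have := ht.1; rwa [proj_line] at this)
      simp [this]
  have himg : (A : E3 →ₗ[ℝ] E3) '' Z = A.symm ⁻¹' Z := A.toEquiv.image_eq_preimage_symm Z
  have hAZm : MeasurableSet (A.symm ⁻¹' Z) :=
    hZm.preimage (A.symm : E3 →ₗ[ℝ] E3).continuous_of_finiteDimensional.measurable
  have h1 := Measure.addHaar_image_linearMap (volume : Measure E3) (A : E3 →ₗ[ℝ] E3) Z
  rw [himg, hvZ] at h1
  have h2 : volume (A.symm ⁻¹' Z) = ENNReal.ofReal s⁻¹ * volume (planeMap A u u0 ⁻¹' B) := by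
    have hm : MeasurableSet (planeMap A u u0 ⁻¹' B) :=
      hB.preimage (planeMap A u u0).continuous.measurable
    rw [volume_eq_lintegral_fib hu hAZm, ← lintegral_indicator_one hm,
      ← lintegral_const_mul' _ _ ENNReal.ofReal_ne_top]
    refine lintegral_congr fun w => ?_
    have hline : ∀ t : ℝ, t ∈ fib u (A.symm ⁻¹' Z) w ↔
        planeMap A u u0 w ∈ B ∧ ⟪u0, A.symm (w : E3)⟫ + t * s ∈ Icc (0 : ℝ) 1 := by
      intro t
      show A.symm ((w : E3) + t • u) ∈ Z ↔ _
      rw [symm_line A hAu]
      simp only [hZ, mem_setOf_eq, map_add, map_smul, planeMap_apply, inner_add_right,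
        real_inner_smul_right, real_inner_self_eq_norm_sq, hu0]
      rw [proj, Submodule.orthogonalProjectionOnto_orthogonalComplement_singleton_eq_zero]
      simp
    by_cases hw : w ∈ planeMap A u u0 ⁻¹' B
    · rw [indicator_of_mem hw]
      set a := ⟪u0, A.symm (w : E3)⟫
      have : fib u (A.symm ⁻¹' Z) w = Icc (-a / s) ((1 - a) / s) := by
        ext t
        rw [hline, and_iff_right (show planeMap A u u0 w ∈ B from hw), mem_Icc, mem_Icc,
          div_le_iff₀ hs, le_div_iff₀ hs]
        constructor <;> intro h <;> constructor <;> linarith [h.1, h.2]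
      rw [this, Real.volume_Icc, Pi.one_apply, mul_one]
      congr 1
      field_simp
      ring
    · rw [indicator_of_notMem hw]
      have : fib u (A.symm ⁻¹' Z) w = ∅ :=
        eq_empty_of_forall_notMem fun t ht => hw ((hline t).1 ht).1
      simp [this]
  rw [h2] at h1
  have h3 := congrArg (fun z => ENNReal.ofReal s * z) h1
  simp only [← mul_assoc, ← ENNReal.ofReal_mul hs.le, mul_inv_cancel₀ hs.ne', ENNReal.ofReal_one,
    one_mul] at h3
  exact h3

end

/-- Certifying sets exist for every convex body. -/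
theorem exists_good_set' : ∃ δ : ℝ, 0 < δ ∧ δ < 1 ∧ ∀ K : Set E3, Convex ℝ K → IsCompact K →
    (interior K).Nonempty →
    ∃ G : Set E3, MeasurableSet G ∧ G ⊆ K ∧ volume G ≠ 0 ∧ volume G ≠ ⊤ ∧
      ∀ u : E3, ‖u‖ = 1 → ∀ y : plane u,
        volume (proj u '' K) * volume (fib u G y) ≤ ENNReal.ofReal (3 - δ) * volume G := by
  obtain ⟨δ, hδ, hδ1, hgood⟩ := exists_good_set
  refine ⟨δ, hδ, hδ1, fun K hc hk hi => ?_⟩
  obtain ⟨A, c, K0, hK0, hKeq⟩ := exists_nice K hc hk hi
  obtain ⟨G0, hG0m, hG0K, hG0v, hG0⟩ := hgood K0 hK0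
  have hG0fin : volume G0 ≠ ⊤ := measure_ne_top_of_subset hG0K hK0.vol_ne_top
  set G := (fun z => z + -c) ⁻¹' (A.symm ⁻¹' G0) with hG
  set D := |LinearMap.det (A : E3 →ₗ[ℝ] E3)| with hD
  have hD0 : 0 < D := abs_pos.2 (LinearEquiv.isUnit_det' A).ne_zero
  have hcont : Continuous (A.symm : E3 → E3) :=
    (A.symm : E3 →ₗ[ℝ] E3).continuous_of_finiteDimensional
  have hAm : MeasurableSet (A.symm ⁻¹' G0) := hG0m.preimage hcont.measurable
  have hvG : volume G = ENNReal.ofReal D * volume G0 := by
    rw [hG, measure_preimage_add_right, hD,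
      ← Measure.addHaar_image_linearMap (volume : Measure E3) (A : E3 →ₗ[ℝ] E3) G0]
    exact congrArg volume (A.toEquiv.image_eq_preimage_symm G0).symm
  refine ⟨G, hAm.preimage (measurable_add_const _), ?_, ?_, ?_, fun u hu y => ?_⟩
  · intro z hz
    rw [hKeq]
    exact ⟨_, hG0K hz, by simp⟩
  · rw [hvG]
    refine mul_ne_zero (by simpa using hD0) fun h => ?_
    rw [h] at hG0v
    simp at hG0v
  · rw [hvG]; exact ENNReal.mul_ne_top ENNReal.ofReal_ne_top hG0fin
  set s := ‖A.symm u‖ with hs'
  have hne : A.symm u ≠ 0 := fun h => by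
    have : u = 0 := by simpa using congrArg A h
    simp [this] at hu
  have hs : 0 < s := norm_pos_iff.2 hne
  set u0 := s⁻¹ • A.symm u with hu0'
  have hu0 : ‖u0‖ = 1 := norm_smul_inv_norm hne
  have hAu : A.symm u = s • u0 := by rw [hu0', smul_smul, mul_inv_cancel₀ hs.ne', one_smul]
  have hS : volume (proj u '' K) = ENNReal.ofReal (s * D) * volume (proj u0 '' K0) := by
    rw [hKeq, image_shadow A hu hu0 hs hAu, measure_preimage_add_right, hD,
      volume_shadow A hu hu0 hs hAu (hK0.cpt.image (proj u0).continuous).measurableSet]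
  set z := A.symm ((y : E3) + -c) with hz
  set y0 := proj u0 z with hy0
  have hF : fib u G y = (fun t => s * t) ⁻¹' ((fun t => t + ⟪u0, z⟫) ⁻¹' fib u0 G0 y0) := by
    ext t
    show A.symm ((y : E3) + t • u + -c) ∈ G0 ↔ (y0 : E3) + (s * t + ⟪u0, z⟫) • u0 ∈ G0
    rw [show (y : E3) + t • u + -c = ((y : E3) + -c) + t • u by abel, map_add, map_smul, hAu,
      ← hz, smul_smul, add_smul, add_comm ((s * t) • u0), ← add_assoc, hy0, proj_decomp hu0,
      mul_comm t s]
  have hF2 : volume (fib u G y) = ENNReal.ofReal s⁻¹ * volume (fib u0 G0 y0) := by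
    rw [hF, Real.volume_preimage_mul_left hs.ne', measure_preimage_add_right,
      abs_of_pos (inv_pos.2 hs)]
  have hSfin : volume (proj u0 '' K0) ≠ ⊤ := (hK0.cpt.image (proj u0).continuous).measure_lt_top.ne
  have hFfin : volume (fib u0 G0 y0) ≠ ⊤ := by
    have hsub : fib u0 G0 y0 ⊆ Icc (-2 : ℝ) 2 := by
      intro t ht
      have h1 := hK0.norm_le (hG0K ht)
      have h2 : ⟪u0, (y0 : E3) + t • u0⟫ = t := by
        rw [inner_add_right, real_inner_smul_right, real_inner_self_eq_norm_sq, hu0,
          real_inner_comm, coe_mem_plane]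
        ring
      have h3 := abs_real_inner_le_norm u0 ((y0 : E3) + t • u0)
      rw [h2, hu0, one_mul] at h3
      exact abs_le.1 (by linarith)
    exact measure_ne_top_of_subset hsub measure_Icc_lt_top.ne
  have key : volume (proj u0 '' K0) * volume (fib u0 G0 y0) ≤ ENNReal.ofReal (3 - δ) * volume G0 := by
    rw [← ENNReal.toReal_le_toReal (ENNReal.mul_ne_top hSfin hFfin)
      (ENNReal.mul_ne_top ENNReal.ofReal_ne_top hG0fin), ENNReal.toReal_mul, ENNReal.toReal_mul,
      ENNReal.toReal_ofReal (by linarith)]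
    exact hG0 u0 hu0 y0
  calc volume (proj u '' K) * volume (fib u G y)
      = ENNReal.ofReal (s * D) * ENNReal.ofReal s⁻¹ *
          (volume (proj u0 '' K0) * volume (fib u0 G0 y0)) := by rw [hS, hF2]; ring
    _ = ENNReal.ofReal D * (volume (proj u0 '' K0) * volume (fib u0 G0 y0)) := by
        rw [← ENNReal.ofReal_mul (by positivity), mul_comm s D, mul_assoc D,
          mul_inv_cancel₀ hs.ne', mul_one]
    _ ≤ ENNReal.ofReal D * (ENNReal.ofReal (3 - δ) * volume G0) := mul_le_mul_right key _
    _ = _ := by rw [hvG]; ring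

/-- The relative area of every covering exceeds one third by a universal amount. -/
theorem relative_bound : ∃ δ : ℝ, 0 < δ ∧ ∀ (K : Set E3) (ι : Type) [Countable ι] (u : ι → E3)
    (B : ∀ i, Set (plane (u i))), Convex ℝ K → IsCompact K → (interior K).Nonempty →
    (∀ i, ‖u i‖ = 1) → K ⊆ ⋃ i, cylinder (u i) (B i) →
    ENNReal.ofReal (1 / 3 + δ) ≤ ∑' i, volume (B i) / shadowArea (u i) K := by
  obtain ⟨δ, hδ, hδ1, hgood⟩ := exists_good_set'
  refine ⟨δ / 9, by positivity, fun K ι _ u B hc hk hi hu hcov => ?_⟩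
  obtain ⟨G, hGm, hGK, hG0, hGfin, hline⟩ := hgood K hc hk hi
  let B' : ∀ i, Set (plane (u i)) := fun i => toMeasurable volume (B i)
  have hPfin : ∀ i, shadowArea (u i) K ≠ ⊤ := fun i =>
    (hk.image (proj (u i)).continuous).measure_lt_top.ne
  have hPpos : ∀ i, shadowArea (u i) K ≠ 0 := fun i => by
    have hsurj : Function.Surjective (proj (u i)) := fun y => ⟨y, proj_coe y⟩
    have ho := (proj (u i)).isOpenMap hsurj _ (isOpen_interior (s := K))
    exact (lt_of_lt_of_le (ho.measure_pos volume (hi.image _))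
      (measure_mono (image_mono interior_subset))).ne'
  set M := ENNReal.ofReal (3 - δ) * volume G with hM
  have hterm : ∀ i, volume (G ∩ proj (u i) ⁻¹' B' i) ≤ M * (volume (B i) / shadowArea (u i) K) := by
    intro i
    have hBm : MeasurableSet (B' i) := measurableSet_toMeasurable _ _
    rw [volume_eq_lintegral_fib (hu i) (hGm.inter (hBm.preimage (proj (u i)).continuous.measurable))]
    calc _ ≤ ∫⁻ y : plane (u i), (B' i).indicator (fun _ => M / shadowArea (u i) K) y := by
          refine lintegral_mono fun y => ?_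
          by_cases hy : y ∈ B' i
          · rw [indicator_of_mem hy, ENNReal.le_div_iff_mul_le (Or.inl (hPpos i)) (Or.inl (hPfin i))]
            refine le_trans ?_ (hline (u i) (hu i) y)
            rw [mul_comm]
            exact mul_le_mul_right (measure_mono fun t ht => ht.1) _
          · rw [indicator_of_notMem hy, nonpos_iff_eq_zero]
            convert measure_empty (μ := (volume : Measure ℝ))
            exact eq_empty_of_forall_notMem fun t ht => hy (by
              have := ht.2; rwa [mem_preimage, proj_line] at this)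
      _ = M / shadowArea (u i) K * volume (B i) := by
          rw [lintegral_indicator_const hBm, measure_toMeasurable]
      _ = _ := by rw [div_eq_mul_inv, div_eq_mul_inv, mul_assoc, mul_comm (shadowArea _ _)⁻¹]
  have hcover : G ⊆ ⋃ i, G ∩ proj (u i) ⁻¹' B' i := fun x hx => by
    obtain ⟨i, b, hb, t, rfl⟩ := mem_iUnion.1 (hcov (hGK hx))
    exact mem_iUnion.2 ⟨i, hx, by rw [mem_preimage, proj_line]; exact subset_toMeasurable _ _ hb⟩
  have hsum : volume G ≤ volume G * (ENNReal.ofReal (3 - δ) * ∑' i, volume (B i) / shadowArea (u i) K) := by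
    rw [← mul_assoc, mul_comm (volume G), ← hM, ← ENNReal.tsum_mul_left]
    exact (measure_mono hcover).trans ((measure_iUnion_le _).trans (ENNReal.tsum_le_tsum hterm))
  have h1 : 1 ≤ ENNReal.ofReal (3 - δ) * ∑' i, volume (B i) / shadowArea (u i) K :=
    (ENNReal.mul_le_mul_iff_right hG0 hGfin).1 (by simpa using hsum)
  have h2 : ENNReal.ofReal (1 / (3 - δ)) ≤ ∑' i, volume (B i) / shadowArea (u i) K := by
    rw [ENNReal.ofReal_div_of_pos (by linarith), ENNReal.ofReal_one]
    exact ENNReal.div_le_of_le_mul (by rwa [mul_comm])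
  refine le_trans (ENNReal.ofReal_le_ofReal ?_) h2
  rw [le_div_iff₀ (by linarith)]
  nlinarith

end Vale.Agent.P243.Improve
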