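import Vale.Agent.P243.Improve.Stability

/-!
# P243, improved lower bound: few points are close to two separated supporting planes
-/

open MeasureTheory Set Metric
open scoped RealInnerProductSpace ENNReal

namespace Vale.Agent.P243.Improve

variable {K : Set E3}

lemma slack_comb {n n' x : E3} {η a b : ℝ} (h : Slack K n x η) (h' : Slack K n' x η) (ha : 0 ≤ a)
    (hb : 0 ≤ b) : Slack K (a • n + b • n') x ((a + b) * η) := fun z hz => by
  rw [inner_add_left, real_inner_smul_left, real_inner_smul_left, add_mul]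
  exact add_le_add (mul_le_mul_of_nonneg_left (h z hz) ha) (mul_le_mul_of_nonneg_left (h' z hz) hb)

/-- The box of translates attached to a sharp point. -/
lemma exists_tube (hK : Nice K) {x : E3} {w : ℝ} (hw : 0 < w) (hw1 : w ≤ 1 / 100)
    (hx : x ∈ Sharp K (w ^ 2)) :
    ∃ T : Set E3, MeasurableSet T ∧ volume T = ENNReal.ofReal (w / 50000) ∧
      T ⊆ closedBall 0 4 ∧
      ∀ y ∈ T, ∃ v e : E3, y = x + (v + e) ∧ Slack K v x (2 * w ^ 2) ∧ ‖e‖ ≤ w := by
  obtain ⟨hxK, n, n', hn, hn', hsep, hs, hs'⟩ := hx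
  set c := ⟪n, n'⟫ with hc
  have hnn : ‖n - n'‖ ^ 2 = 2 - 2 * c := by rw [norm_sub_sq_real, hn, hn', hc]; ring
  have hpp : ‖n + n'‖ ^ 2 = 2 + 2 * c := by rw [norm_add_sq_real, hn, hn', hc]; ring
  have hw2 : w ^ 2 ≤ 1 / 10000 := by nlinarith
  have hplus : 1 / 20 ≤ ‖n + n'‖ := by
    have hball : ∀ m : E3, ‖m‖ = 1 → Slack K m x (w ^ 2) → 1 / 30 - ⟪m, x⟫ ≤ w ^ 2 := by
      intro m hm h
      have h1 := hK.inner_normal_ge hm (a := w ^ 2 + ⟪m, x⟫) fun z hz => by
        have := h z hz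
        rw [inner_sub_right] at this
        linarith
      linarith
    have h1 := hball n hn hs
    have h2 := hball n' hn' hs'
    have h3 : ⟪n + n', x⟫ ≤ ‖n + n'‖ :=
      (real_inner_le_norm _ _).trans (mul_le_of_le_one_right (norm_nonneg _) (hK.norm_le hxK))
    rw [inner_add_left] at h3
    linarith
  have hc2 : 1 / 17000000 ≤ 1 - c ^ 2 := by
    have h1 : (1 / 100 : ℝ) ^ 2 ≤ ‖n - n'‖ ^ 2 := pow_le_pow_left₀ (by norm_num) hsep 2
    have h2 : (1 / 20 : ℝ) ^ 2 ≤ ‖n + n'‖ ^ 2 := pow_le_pow_left₀ (by norm_num) hplus 2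
    rw [hnn] at h1
    rw [hpp] at h2
    nlinarith
  set S := Real.sqrt (1 - c ^ 2) with hS
  have hS0 : 1 / 4500 ≤ S := by
    rw [hS, Real.le_sqrt (by norm_num) (by linarith)]
    norm_num
    linarith
  have hSpos : 0 < S := by linarith
  set e2 := S⁻¹ • (n' - c • n) with he2
  have hn2 : ⟪n, e2⟫ = 0 := by
    rw [he2, real_inner_smul_right, inner_sub_right, real_inner_smul_right,
      real_inner_self_eq_norm_sq, hn, hc]
    ring
  have he2n : ‖e2‖ = 1 := by
    have h : ‖n' - c • n‖ = S := by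
      rw [hS, ← Real.sqrt_sq (norm_nonneg _), norm_sub_sq_real, real_inner_smul_right, norm_smul,
        Real.norm_eq_abs, mul_pow, sq_abs, hn, hn', real_inner_comm, ← hc]
      ring_nf
    rw [he2, norm_smul, h, Real.norm_eq_abs, abs_of_pos (inv_pos.2 hSpos),
      inv_mul_cancel₀ hSpos.ne']
  obtain ⟨e3, he3, he3a, he3b⟩ := exists_unit_orthogonal n e2
  have hon : Orthonormal ℝ (![n, e2, e3] : Fin 3 → E3) := by
    refine ⟨fun i => by fin_cases i <;> simp [hn, he2n, he3], fun i j hij => ?_⟩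
    fin_cases i <;> fin_cases j <;>
      simp_all [real_inner_comm]
  let o : OrthonormalBasis (Fin 3) ℝ E3 := OrthonormalBasis.mk hon
    (hon.linearIndependent.span_eq_top_of_card_eq_finrank (by simp)).ge
  let lo : Fin 3 → ℝ := ![1, 0, -w]
  let hi : Fin 3 → ℝ := ![6 / 5, 1 / 20000, w]
  let Φ : E3 → (Fin 3 → ℝ) := fun y => WithLp.ofLp (o.repr y)
  have hΦ : MeasurePreserving Φ volume volume :=
    (PiLp.volume_preserving_ofLp (Fin 3)).comp o.measurePreserving_repr
  let T : Set E3 := (fun y => y + -x) ⁻¹' (Φ ⁻¹' Icc lo hi)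
  have hdec : ∀ y ∈ T, ∃ a b s : ℝ, a ∈ Icc (1 : ℝ) (6 / 5) ∧ b ∈ Icc (0 : ℝ) (1 / 20000) ∧
      |s| ≤ w ∧ y = x + (a • n + b • e2 + s • e3) := by
    intro y hy
    have hy' : Φ (y + -x) ∈ Icc lo hi := hy
    refine ⟨Φ (y + -x) 0, Φ (y + -x) 1, Φ (y + -x) 2, ⟨hy'.1 0, hy'.2 0⟩, ⟨hy'.1 1, hy'.2 1⟩,
      abs_le.2 ⟨hy'.1 2, hy'.2 2⟩, ?_⟩
    have h := o.sum_repr (y + -x)
    rw [Fin.sum_univ_three] at h
    simp only [o, OrthonormalBasis.coe_mk, Matrix.cons_val_zero, Matrix.cons_val_one,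
      Matrix.cons_val] at h
    show y = x + (Φ (y + -x) 0 • n + Φ (y + -x) 1 • e2 + Φ (y + -x) 2 • e3)
    simp only [Φ, o]
    rw [h]
    abel
  refine ⟨T, (measurableSet_Icc.preimage hΦ.measurable).preimage (measurable_add_const _), ?_, ?_, ?_⟩
  · show volume ((fun y => y + -x) ⁻¹' (Φ ⁻¹' Icc lo hi)) = _
    rw [measure_preimage_add_right, hΦ.measure_preimage measurableSet_Icc.nullMeasurableSet,
      Real.volume_Icc_pi, Fin.prod_univ_three]
    simp only [lo, hi, Matrix.cons_val_zero, Matrix.cons_val_one, Matrix.cons_val]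
    rw [← ENNReal.ofReal_mul (by norm_num), ← ENNReal.ofReal_mul (by norm_num)]
    ring_nf
  · intro y hy
    obtain ⟨a, b, s, ha, hb, hs3, rfl⟩ := hdec y hy
    rw [mem_closedBall_zero_iff]
    refine (norm_add_le _ _).trans ?_
    have h1 := norm_add₃_le (a := a • n) (b := b • e2) (c := s • e3)
    rw [norm_smul a, norm_smul b, norm_smul s, hn, he2n, he3, Real.norm_eq_abs, Real.norm_eq_abs,
      Real.norm_eq_abs, abs_of_pos (show (0 : ℝ) < a by linarith [ha.1]), abs_of_nonneg hb.1] at h1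
    linarith [hK.norm_le hxK, ha.2, hb.2]
  · intro y hy
    obtain ⟨a, b, s, ha, hb, hs3, rfl⟩ := hdec y hy
    refine ⟨a • n + b • e2, s • e3, rfl, ?_, by rwa [norm_smul, he3, mul_one, Real.norm_eq_abs]⟩
    have hcoef : a • n + b • e2 = (a - b * c * S⁻¹) • n + (b * S⁻¹) • n' := by
      rw [he2]; module
    have hbS : b * S⁻¹ ≤ 1 / 4 := by
      rw [← div_eq_mul_inv, div_le_iff₀ hSpos]; linarith [hb.2]
    have hbS0 : 0 ≤ b * S⁻¹ := mul_nonneg hb.1 (inv_nonneg.2 hSpos.le)
    have hc1 : |c| ≤ 1 := abs_le.2 ⟨by nlinarith, by nlinarith⟩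
    have hbc : |b * c * S⁻¹| ≤ 1 / 4 := by
      rw [mul_right_comm, abs_mul, abs_of_nonneg hbS0]
      exact (mul_le_of_le_one_right hbS0 hc1).trans hbS
    rw [abs_le] at hbc
    rw [hcoef]
    intro z hz
    refine (slack_comb hs hs' (by linarith [ha.1]) hbS0 z hz).trans ?_
    exact mul_le_mul_of_nonneg_right (by linarith [ha.2]) (sq_nonneg w)

lemma tubes_disjoint {x x' : E3} {w : ℝ} (hw : 0 < w) (hxK : x ∈ K) (hx'K : x' ∈ K)
    (hsep : 5 * w < dist x x') {T T' : Set E3}
    (hT : ∀ y ∈ T, ∃ v e : E3, y = x + (v + e) ∧ Slack K v x (2 * w ^ 2) ∧ ‖e‖ ≤ w)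
    (hT' : ∀ y ∈ T', ∃ v e : E3, y = x' + (v + e) ∧ Slack K v x' (2 * w ^ 2) ∧ ‖e‖ ≤ w) :
    Disjoint T T' := by
  rw [Set.disjoint_left]
  intro y hy hy'
  obtain ⟨v, e, rfl, hv, he⟩ := hT y hy
  obtain ⟨v', e', heq, hv', he'⟩ := hT' _ hy'
  have h1 := hv x' hx'K
  have h2 := hv' x hxK
  have h3 : x - x' = (v' + e') - (v + e) := by
    rw [sub_eq_sub_iff_add_eq_add]
    rw [heq]; abel
  have h4 : ‖x - x'‖ ^ 2 = ⟪v', x - x'⟫ + ⟪v, x' - x⟫ + ⟪e' - e, x - x'⟫ := by
    rw [← real_inner_self_eq_norm_sq]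
    nth_rewrite 1 [h3]
    rw [inner_sub_left, inner_add_left, inner_add_left, inner_sub_left, ← neg_sub x x',
      inner_neg_right]
    ring
  have h5 : ⟪e' - e, x - x'⟫ ≤ 2 * w * ‖x - x'‖ :=
    (real_inner_le_norm _ _).trans (mul_le_mul_of_nonneg_right
      ((norm_sub_le _ _).trans (by linarith)) (norm_nonneg _))
  rw [dist_eq_norm] at hsep
  nlinarith

/-- Near a point, the sharp points lie in two thin layers. -/
lemma volume_piece (hK : Nice K) {x0 : E3} {w : ℝ} (hw : 0 < w) (hw1 : w ≤ 1 / 500)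
    (hx0 : x0 ∈ Sharp K (w ^ 2)) :
    volume (Sharp K (w ^ 2) ∩ closedBall x0 (5 * w)) ≤
      ENNReal.ofReal (3125 * w ^ 4) * volume (closedBall (0 : EuclideanSpace ℝ (Fin 2)) 1) := by
  have hne : x0 ≠ 0 := by
    rintro rfl
    obtain ⟨-, n, -, hn, -, -, hs, -⟩ := hx0
    have h1 := hs _ (hK.ball_mem (x := (1 / 30 : ℝ) • n) (by rw [norm_smul, hn]; norm_num))
    rw [sub_zero, real_inner_smul_right, real_inner_self_eq_norm_sq, hn] at h1
    nlinarith
  set u := ‖x0‖⁻¹ • x0 with hu'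
  have hu : ‖u‖ = 1 := norm_smul_inv_norm hne
  have hp0 : proj u x0 = 0 := by
    have : x0 = ‖x0‖ • u := by
      rw [hu', smul_smul, mul_inv_cancel₀ (norm_ne_zero_iff.2 hne), one_smul]
    rw [this, map_smul, proj,
      Submodule.orthogonalProjectionOnto_orthogonalComplement_singleton_eq_zero, smul_zero]
  set Z := Sharp K (w ^ 2) ∩ closedBall x0 (5 * w) with hZ
  have hZm : MeasurableSet Z :=
    (isCompact_sharp hK.cpt _).measurableSet.inter measurableSet_closedBall
  have hb : ∀ y : plane u, volume (fib u Z y) ≤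
      (closedBall (0 : plane u) (5 * w)).indicator (fun _ => ENNReal.ofReal (125 * w ^ 2)) y := by
    intro y
    by_cases hy : y ∈ closedBall (0 : plane u) (5 * w)
    swap
    · rw [indicator_of_notMem hy, nonpos_iff_eq_zero]
      convert measure_empty (μ := (volume : Measure ℝ))
      refine eq_empty_of_forall_notMem fun t ht => hy ?_
      rw [mem_closedBall_zero_iff]
      have h := norm_proj_le u ((y : E3) + t • u - x0)
      rw [map_sub, proj_line, hp0, sub_zero, ← dist_eq_norm] at h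
      exact h.trans (mem_closedBall.1 ht.2)
    rw [indicator_of_mem hy]
    rw [mem_closedBall_zero_iff] at hy
    have hy' : ‖(y : E3)‖ ≤ 1 / 100 := le_trans hy (by linarith)
    set F := fib u K y with hF
    have hFc : IsClosed F := hK.cpt.isClosed.preimage (by fun_prop)
    have hFb : ∀ t ∈ F, |t| ≤ 2 := by
      intro t ht
      have h1 := hK.norm_le ht
      have h2 : ‖t • u‖ ≤ ‖(y : E3) + t • u‖ + ‖(y : E3)‖ := by
        simpa using norm_sub_le ((y : E3) + t • u) (y : E3)
      rw [norm_smul, hu, mul_one, Real.norm_eq_abs] at h2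
      linarith
    have hFcpt : IsCompact F := (isCompact_Icc (a := (-2 : ℝ)) (b := 2)).of_isClosed_subset hFc
      fun t ht => abs_le.1 (hFb t ht)
    have hmemF : ∀ t : ℝ, |t| ≤ 1 / 60 → t ∈ F := fun t ht => hK.ball_mem <| by
      refine (norm_add_le _ _).trans ?_
      rw [norm_smul, hu, mul_one, Real.norm_eq_abs]
      linarith
    have hne' : F.Nonempty := ⟨0, hmemF 0 (by norm_num)⟩
    have key : ∀ e t : ℝ, e ∈ F → (0 ≤ t ∧ t ≤ e ∨ e ≤ t ∧ t ≤ 0) → t ∈ fib u Z y → e ≠ 0 →
        |e - t| ≤ 60 * w ^ 2 * (|e| / 2) * 2 := by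
      intro e t he hte ht he0
      obtain ⟨-, n, -, hn, -, -, hs, -⟩ := ht.1
      set r := t / e with hr
      have hr01 : 0 ≤ r ∧ r ≤ 1 := by
        rcases hte with h | h
        · have : 0 < e := lt_of_le_of_ne (h.1.trans h.2) (Ne.symm he0)
          exact ⟨div_nonneg h.1 this.le, (div_le_one this).2 h.2⟩
        · have : e < 0 := lt_of_le_of_ne (h.1.trans h.2) he0
          exact ⟨div_nonneg_of_nonpos h.2 this.le, (div_le_one_of_neg this).2 h.1⟩
      have hin : (y : E3) + (1 / 60 : ℝ) • n ∈ K := hK.ball_mem <| by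
        refine (norm_add_le _ _).trans ?_
        rw [norm_smul, hn]
        norm_num
        linarith
      have hcomb := hK.conv hin he (sub_nonneg.2 hr01.2) hr01.1 (sub_add_cancel _ _)
      have h1 := hs _ hcomb
      have h2 : (1 - r) • ((y : E3) + (1 / 60 : ℝ) • n) + r • ((y : E3) + e • u)
          - ((y : E3) + t • u) = ((1 - r) / 60) • n := by
        have : t = r * e := by rw [hr, div_mul_cancel₀ _ he0]
        rw [this]
        module
      rw [h2, real_inner_smul_right, real_inner_self_eq_norm_sq, hn] at h1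
      have h3 : |e - t| = (1 - r) * |e| := by
        rw [← abs_of_nonneg (sub_nonneg.2 hr01.2), ← abs_mul, hr]
        congr 1
        field_simp
      rw [h3]
      nlinarith [abs_nonneg e]
    set α := sInf F with hα
    set β := sSup F with hβ
    have hαF : α ∈ F := hFcpt.sInf_mem hne'
    have hβF : β ∈ F := hFcpt.sSup_mem hne'
    have hα0 : α ≤ -(1 / 60) := csInf_le hFcpt.bddBelow (hmemF _ (by norm_num))
    have hβ0 : 1 / 60 ≤ β := le_csSup hFcpt.bddAbove (hmemF _ (by norm_num))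
    have hbd : ∀ e ∈ F, |e| ≤ 101 / 100 := by
      intro t ht
      have h1 := hK.norm_le ht
      have h2 : ‖t • u‖ ≤ ‖(y : E3) + t • u‖ + ‖(y : E3)‖ := by
        simpa using norm_sub_le ((y : E3) + t • u) (y : E3)
      rw [norm_smul, hu, mul_one, Real.norm_eq_abs] at h2
      linarith
    have hsub : fib u Z y ⊆ Icc (β - 60 * w ^ 2 * (|β| / 2) * 2) β ∪
        Icc α (α + 60 * w ^ 2 * (|α| / 2) * 2) := by
      intro t ht
      have htF : t ∈ F := ht.1.1
      have h1 := csInf_le hFcpt.bddBelow htF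
      have h2 := le_csSup hFcpt.bddAbove htF
      rcases le_or_gt 0 t with h | h
      · have := abs_le.1 (key β t hβF (Or.inl ⟨h, h2⟩) ht (by linarith))
        exact Or.inl ⟨by linarith, h2⟩
      · have := abs_le.1 (key α t hαF (Or.inr ⟨h1, h.le⟩) ht (by linarith))
        exact Or.inr ⟨h1, by linarith⟩
    refine (measure_mono hsub).trans ((measure_union_le _ _).trans ?_)
    rw [Real.volume_Icc, Real.volume_Icc, ← ENNReal.ofReal_add (by nlinarith [abs_nonneg β])
      (by nlinarith [abs_nonneg α])]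
    refine ENNReal.ofReal_le_ofReal ?_
    nlinarith [hbd α hαF, hbd β hβF, sq_nonneg w]
  rw [volume_eq_lintegral_fib hu hZm]
  refine (lintegral_mono hb).trans ?_
  rw [lintegral_indicator_const measurableSet_closedBall]
  have hfin : Module.finrank ℝ (plane u) = 2 := finrank_plane hu
  let o : OrthonormalBasis (Fin 2) ℝ (plane u) :=
    (stdOrthonormalBasis ℝ (plane u)).reindex (finCongr hfin)
  have h1 : volume (closedBall (0 : plane u) (5 * w)) =
      ENNReal.ofReal ((5 * w) ^ 2) * volume (closedBall (0 : EuclideanSpace ℝ (Fin 2)) 1) := by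
    have h2 : closedBall (0 : plane u) (5 * w) =
        o.repr ⁻¹' closedBall (0 : EuclideanSpace ℝ (Fin 2)) (5 * w) := by
      ext z
      simp
    rw [h2, o.measurePreserving_repr.measure_preimage measurableSet_closedBall.nullMeasurableSet,
      Measure.addHaar_closedBall' _ _ (by linarith), finrank_euclideanSpace_fin]
  rw [h1, ← mul_assoc, ← ENNReal.ofReal_mul (by positivity)]
  exact le_of_eq (by ring_nf)

/-- The sharp points fill at most a multiple of `η ^ (3/2)` of space. -/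
theorem volume_sharp : ∃ C : ℝ, 0 < C ∧ ∀ K, Nice K → ∀ w : ℝ, 0 < w → w ≤ 1 / 500 →
    (volume (Sharp K (w ^ 2))).toReal ≤ C * w ^ 3 := by
  set V4 := (volume (closedBall (0 : E3) 4)).toReal with hV4
  set A := (volume (closedBall (0 : EuclideanSpace ℝ (Fin 2)) 1)).toReal with hA
  have hV0 : 0 < V4 := ENNReal.toReal_pos (measure_closedBall_pos _ _ (by norm_num)).ne'
    measure_closedBall_lt_top.ne
  have hA0 : 0 < A := ENNReal.toReal_pos (measure_closedBall_pos _ _ (by norm_num)).ne'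
    measure_closedBall_lt_top.ne
  refine ⟨156250000 * V4 * A, by positivity, fun K hK w hw hw1 => ?_⟩
  let Sep : Finset E3 → Prop := fun F => ↑F ⊆ Sharp K (w ^ 2) ∧
    (↑F : Set E3).Pairwise fun a b => 5 * w < dist a b
  have hcard : ∀ F, Sep F → (F.card : ℝ) * w ≤ 50000 * V4 := by
    rintro F ⟨hF, hFp⟩
    have := fun x : F => exists_tube hK hw (by linarith) (hF x.2)
    choose T hTm hTv hTb hT using this
    have hdisj : Pairwise (Function.onFun Disjoint T) := fun a b hab =>
      tubes_disjoint hw (hF a.2).1 (hF b.2).1 (hFp a.2 b.2 fun h => hab (Subtype.ext h)) (hT a) (hT b)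
    have h := measure_mono (μ := (volume : Measure E3)) (iUnion_subset hTb)
    rw [measure_iUnion hdisj hTm, tsum_fintype, Finset.sum_congr rfl fun x _ => hTv x,
      Finset.sum_const, nsmul_eq_mul, Finset.card_univ, Fintype.card_coe] at h
    have h' := ENNReal.toReal_mono measure_closedBall_lt_top.ne h
    rw [ENNReal.toReal_mul, ENNReal.toReal_natCast, ENNReal.toReal_ofReal (by positivity)] at h'
    linarith
  set N : Set ℕ := {m | ∃ F, Sep F ∧ F.card = m}
  have hNb : BddAbove N := ⟨⌈50000 * V4 / w⌉₊, by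
    rintro m ⟨F, hF, rfl⟩
    exact_mod_cast ((le_div_iff₀ hw).2 (hcard F hF)).trans (Nat.le_ceil _)⟩
  obtain ⟨F, hF, hFc⟩ : sSup N ∈ N := Nat.sSup_mem ⟨0, ∅, ⟨by simp, by simp⟩, rfl⟩ hNb
  have hcover : Sharp K (w ^ 2) ⊆ ⋃ x ∈ F, Sharp K (w ^ 2) ∩ closedBall x (5 * w) := by
    intro z hz
    simp only [mem_iUnion, mem_inter_iff, mem_closedBall]
    by_contra hcon
    push Not at hcon
    have hzF : z ∉ F := fun h => by
      have := hcon z h hz
      rw [dist_self] at this
      linarith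
    have hS : Sep (insert z F) := by
      refine ⟨by simp [Finset.coe_insert, insert_subset_iff, hz, hF.1], ?_⟩
      rw [Finset.coe_insert, pairwise_insert]
      exact ⟨hF.2, fun b hb _ => ⟨hcon b hb hz, by rw [dist_comm]; exact hcon b hb hz⟩⟩
    have := le_csSup hNb (show (insert z F).card ∈ N from ⟨_, hS, rfl⟩)
    rw [Finset.card_insert_of_notMem hzF, hFc] at this
    omega
  have h := (measure_mono (μ := (volume : Measure E3)) hcover).trans
    (measure_biUnion_finset_le F _)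
  have h2 := h.trans (Finset.sum_le_sum fun x hx => volume_piece hK hw hw1 (hF.1 hx))
  rw [Finset.sum_const, nsmul_eq_mul] at h2
  have h3 := ENNReal.toReal_mono (ENNReal.mul_ne_top (ENNReal.natCast_ne_top _)
    (ENNReal.mul_ne_top ENNReal.ofReal_ne_top measure_closedBall_lt_top.ne)) h2
  rw [ENNReal.toReal_mul, ENNReal.toReal_mul, ENNReal.toReal_natCast,
    ENNReal.toReal_ofReal (by positivity)] at h3
  refine h3.trans ?_
  have h4 := mul_le_mul_of_nonneg_right (hcard F hF) (show (0 : ℝ) ≤ 3125 * w ^ 3 * A by positivity)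
  calc (F.card : ℝ) * (3125 * w ^ 4 * A) = F.card * w * (3125 * w ^ 3 * A) := by ring
    _ ≤ _ := h4
    _ = _ := by ring

end Vale.Agent.P243.Improve
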