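import Vale.Agent.P243.Improve.Cone

/-!
# P243, improved lower bound: the end of a nearly extremal chord is sharp
-/

open MeasureTheory Set Metric
open scoped RealInnerProductSpace ENNReal Pointwise

namespace Vale.Agent.P243.Improve

variable {K : Set E3} {u : E3}

/-- The parameter of the construction. -/
noncomputable def sig : ℝ := 1 / 200000

/-- Points of the shadow over which the body contains a segment of length `2 sig`. -/
def longShadow (K : Set E3) (u : E3) : Set (plane u) :=
  proj u '' (K ∩ {x | x + (2 * sig) • u ∈ K})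

lemma Nice.fib_convex (hK : Nice K) (u : E3) (y : plane u) : Convex ℝ (fib u K y) := by
  intro a ha b hb s t hs ht hst
  have := hK.conv ha hb hs ht hst
  show (y : E3) + (s • a + t • b) • u ∈ K
  convert this using 1
  simp only [smul_eq_mul]
  obtain rfl : t = 1 - s := by linarith
  module

lemma longShadow_compact (hK : Nice K) (u : E3) : IsCompact (longShadow K u) :=
  (hK.cpt.inter_right (hK.cpt.isClosed.preimage (by fun_prop))).image (proj u).continuous

lemma longShadow_convex (hK : Nice K) (u : E3) : Convex ℝ (longShadow K u) := by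
  refine Convex.linear_image (hK.conv.inter ?_) (proj u).toLinearMap
  have := hK.conv.translate_preimage_left ((2 * sig) • u)
  exact this

lemma closedBall_subset_longShadow (hK : Nice K) (hu : ‖u‖ = 1) :
    closedBall (0 : plane u) (1 / 60) ⊆ longShadow K u := by
  intro y hy
  rw [mem_closedBall_zero_iff] at hy
  have hy' : ‖(y : E3)‖ ≤ 1 / 60 := hy
  refine ⟨(y : E3) - sig • u, ⟨hK.ball_mem ?_, ?_⟩, ?_⟩
  · refine (norm_sub_le _ _).trans ?_
    rw [norm_smul, hu, mul_one, Real.norm_eq_abs, abs_of_pos (by norm_num [sig])]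
    norm_num [sig] at hy' ⊢
    linarith
  · show (y : E3) - sig • u + (2 * sig) • u ∈ K
    rw [show (y : E3) - sig • u + (2 * sig) • u = (y : E3) + sig • u by module]
    refine hK.ball_mem ((norm_add_le _ _).trans ?_)
    rw [norm_smul, hu, mul_one, Real.norm_eq_abs, abs_of_pos (by norm_num [sig])]
    norm_num [sig] at hy' ⊢
    linarith
  · rw [sub_eq_add_neg, ← neg_smul]
    exact proj_line y _

lemma longShadow_nhds (hK : Nice K) (hu : ‖u‖ = 1) : longShadow K u ∈ nhds (0 : plane u) :=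
  Filter.mem_of_superset (closedBall_mem_nhds _ (by norm_num)) (closedBall_subset_longShadow hK hu)

lemma long_of_mem (hK : Nice K) (hu : ‖u‖ = 1) {y : plane u} (hy : y ∈ longShadow K u) :
    ENNReal.ofReal (2 * sig) ≤ volume (fib u K y) := by
  obtain ⟨x, ⟨h1, h2⟩, rfl⟩ := hy
  have hsub : Icc ⟪u, x⟫ (⟪u, x⟫ + 2 * sig) ⊆ fib u K (proj u x) := by
    rw [← segment_eq_Icc (by norm_num [sig])]
    refine (hK.fib_convex u _).segment_subset ?_ ?_
    · show (proj u x : E3) + ⟪u, x⟫ • u ∈ K
      rw [proj_decomp hu]; exact h1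
    · show (proj u x : E3) + (⟪u, x⟫ + 2 * sig) • u ∈ K
      rw [add_smul, ← add_assoc, proj_decomp hu]; exact h2
  refine le_trans (le_of_eq ?_) (measure_mono hsub)
  rw [Real.volume_Icc]
  ring_nf

/-- The radial exit point of `x` from `K` lies above the long part of the shadow. -/
def Good (K : Set E3) (u : E3) : Set E3 :=
  {x | gauge (longShadow K u) (proj u x) ≤ gauge K x}

lemma isClosed_good (hK : Nice K) (hu : ‖u‖ = 1) : IsClosed (Good K u) :=
  isClosed_le ((continuous_gauge (longShadow_convex hK u) (longShadow_nhds hK hu)).comp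
    (proj u).continuous) (continuous_gauge hK.conv hK.nhds)

/-- The shear moving bad directions to good ones. -/
noncomputable def shearAmount (K : Set E3) (u : E3) (y : plane u) : ℝ :=
  4 * sig * gauge (longShadow K u) y

lemma shear_good (hK : Nice K) (hu : ‖u‖ = 1) {x : E3} (hx : x ∉ Good K u) :
    x + shearAmount K u (proj u x) • u ∈ Good K u := by
  set g := gauge (longShadow K u) (proj u x) with hg
  have hlt : gauge K x < g := not_le.1 hx
  have hg0 : 0 < g := lt_of_le_of_lt (gauge_nonneg _) hlt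
  have hproj : proj u (x + shearAmount K u (proj u x) • u) = proj u x := by
    rw [map_add, map_smul, proj,
      Submodule.orthogonalProjectionOnto_orthogonalComplement_singleton_eq_zero, smul_zero,
      add_zero]
  have hz : g⁻¹ • x ∈ interior K := by
    rw [← gauge_lt_one_iff_mem_interior hK.conv hK.nhds, gauge_smul_of_nonneg (inv_nonneg.2 hg0.le),
      smul_eq_mul, inv_mul_lt_iff₀ hg0, mul_one]
    exact hlt
  have hfront : proj u (g⁻¹ • x) ∉ interior (longShadow K u) := by
    rw [← gauge_lt_one_iff_mem_interior (longShadow_convex hK u) (longShadow_nhds hK hu),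
      map_smul, gauge_smul_of_nonneg (inv_nonneg.2 hg0.le), smul_eq_mul, ← hg,
      inv_mul_cancel₀ hg0.ne']
    exact lt_irrefl 1
  have hout : g⁻¹ • x + (4 * sig) • u ∉ K := by
    intro h4
    apply hfront
    have hmid : g⁻¹ • x + (2 * sig) • u ∈ interior K := by
      refine hK.conv.openSegment_interior_self_subset_interior hz h4
        ⟨1 / 2, 1 / 2, by norm_num, by norm_num, by norm_num, ?_⟩
      module
    let U : Set E3 := interior K ∩ (fun p : E3 => p + (2 * sig) • u) ⁻¹' interior K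
    have hU : IsOpen U := isOpen_interior.inter (isOpen_interior.preimage (by fun_prop))
    have hsurj : Function.Surjective (proj u) := fun y => ⟨y, proj_coe y⟩
    refine interior_maximal ?_ ((proj u).isOpenMap hsurj U hU) ⟨_, ⟨hz, hmid⟩, rfl⟩
    exact image_mono fun p hp => ⟨interior_subset hp.1, (interior_subset hp.2 : p + (2 * sig) • u ∈ K)⟩
  show gauge _ _ ≤ gauge K _
  rw [hproj, ← hg]
  by_contra h
  apply hout
  rw [not_le] at h
  have he : g⁻¹ • (x + shearAmount K u (proj u x) • u) = g⁻¹ • x + (4 * sig) • u := by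
    rw [smul_add, smul_smul, shearAmount, ← hg]
    congr 2
    field_simp
  have h1 : gauge K (g⁻¹ • x + (4 * sig) • u) ≤ 1 := by
    rw [← he, gauge_smul_of_nonneg (inv_nonneg.2 hg0.le), smul_eq_mul, inv_mul_le_iff₀ hg0, mul_one]
    exact h.le
  rw [gauge_le_one_iff_mem_closure hK.conv hK.nhds, hK.cpt.isClosed.closure_eq] at h1
  exact h1

/-- At least half of a small ball is good, up to doubling the radius. -/
lemma volume_good_ball (hK : Nice K) (hu : ‖u‖ = 1) {d : E3} (hd : ‖d‖ = 1) :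
    volume (ball ((1 / 120 : ℝ) • d) (1 / 48000)) ≤
      2 * volume (Good K u ∩ ball ((1 / 120 : ℝ) • d) (1 / 24000)) := by
  set A0 := ball ((1 / 120 : ℝ) • d) (1 / 48000 : ℝ) with hA0
  set A1 := ball ((1 / 120 : ℝ) • d) (1 / 24000 : ℝ) with hA1
  have hGm : MeasurableSet (Good K u) := (isClosed_good hK hu).measurableSet
  set B := A0 ∩ (Good K u)ᶜ with hB
  have hBm : MeasurableSet B := measurableSet_ball.inter hGm.compl
  have hgc : Continuous fun y : plane u => shearAmount K u y :=
    continuous_const.mul (continuous_gauge (longShadow_convex hK u) (longShadow_nhds hK hu))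
  set B' := (fun x : E3 => x - shearAmount K u (proj u x) • u) ⁻¹' B with hB'
  have hB'm : MeasurableSet B' := hBm.preimage
    (continuous_id.sub ((hgc.comp (proj u).continuous).smul continuous_const)).measurable
  have hvol : volume B' = volume B := by
    rw [volume_eq_lintegral_fib hu hB'm, volume_eq_lintegral_fib hu hBm]
    refine lintegral_congr fun y => ?_
    have : fib u B' y = (fun t : ℝ => t + -shearAmount K u y) ⁻¹' fib u B y := by
      ext t
      show ((y : E3) + t • u) - shearAmount K u (proj u ((y : E3) + t • u)) • u ∈ B ↔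
        (y : E3) + (t + -shearAmount K u y) • u ∈ B
      rw [proj_line, add_smul, neg_smul, ← add_assoc, sub_eq_add_neg]
    rw [this, measure_preimage_add_right]
  have hsub : B' ⊆ Good K u ∩ A1 := by
    intro w hw
    set x := w - shearAmount K u (proj u w) • u with hx
    have hxB : x ∈ B := hw
    have hp : proj u x = proj u w := by
      rw [hx, map_sub, map_smul, proj,
        Submodule.orthogonalProjectionOnto_orthogonalComplement_singleton_eq_zero, smul_zero,
        sub_zero]
    have hw' : w = x + shearAmount K u (proj u x) • u := by rw [hp, hx]; abel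
    refine ⟨hw' ▸ shear_good hK hu hxB.2, ?_⟩
    have hx0 : dist x ((1 / 120 : ℝ) • d) < 1 / 48000 := hxB.1
    have hxn : ‖x‖ ≤ 1 / 100 := by
      have h := norm_le_norm_add_norm_sub' x ((1 / 120 : ℝ) • d)
      have hn : ‖(1 / 120 : ℝ) • d‖ = 1 / 120 := by rw [norm_smul, hd]; norm_num
      rw [hn, ← dist_eq_norm x] at h
      linarith
    have hgle : gauge (longShadow K u) (proj u x) ≤ 3 / 5 := by
      have h1 := mul_gauge_le_norm (s := longShadow K u) (x := proj u x)
        (ball_subset_closedBall.trans (closedBall_subset_longShadow hK hu))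
      have h2 := (norm_proj_le u x).trans hxn
      linarith
    rw [hw', hA1, mem_ball]
    calc dist (x + shearAmount K u (proj u x) • u) ((1 / 120 : ℝ) • d)
        ≤ dist (x + shearAmount K u (proj u x) • u) x + dist x ((1 / 120 : ℝ) • d) :=
          dist_triangle _ _ _
      _ < 1 / 24000 := by
          rw [dist_eq_norm, add_sub_cancel_left, norm_smul, hu, mul_one, Real.norm_eq_abs,
            shearAmount, abs_of_nonneg (mul_nonneg (by norm_num [sig]) (gauge_nonneg _))]
          have : 4 * sig * gauge (longShadow K u) (proj u x) ≤ 4 * sig * (3 / 5) :=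
            mul_le_mul_of_nonneg_left hgle (by norm_num [sig])
          norm_num [sig] at this ⊢
          linarith
  calc volume A0 ≤ volume ((A0 ∩ Good K u) ∪ B) := measure_mono (by
        intro x hx
        by_cases h : x ∈ Good K u
        · exact Or.inl ⟨hx, h⟩
        · exact Or.inr ⟨hx, h⟩)
    _ ≤ volume (A0 ∩ Good K u) + volume B := measure_union_le _ _
    _ ≤ volume (Good K u ∩ A1) + volume (Good K u ∩ A1) := by
        refine add_le_add (measure_mono ?_) (hvol ▸ measure_mono hsub)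
        rintro x ⟨hx, hG⟩
        exact ⟨hG, ball_subset_ball (by norm_num) hx⟩
    _ = _ := (two_mul _).symm

/-- Directions near `d`. -/
def nearDir (d : E3) : Set E3 := {x | ‖x - ‖x‖ • d‖ ≤ 1 / 50 * ‖x‖}

lemma smul_mem_nearDir {d x : E3} (hx : x ∈ nearDir d) {a : ℝ} (ha : 0 ≤ a) :
    a • x ∈ nearDir d := by
  show ‖a • x - ‖a • x‖ • d‖ ≤ 1 / 50 * ‖a • x‖
  rw [norm_smul, Real.norm_eq_abs, abs_of_nonneg ha, ← smul_smul, ← smul_sub, norm_smul,
    Real.norm_eq_abs, abs_of_nonneg ha, mul_left_comm]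
  exact mul_le_mul_of_nonneg_left hx ha

lemma smul_mem_good {x : E3} (hx : x ∈ Good K u) {a : ℝ} (ha : 0 ≤ a) : a • x ∈ Good K u := by
  show gauge _ (proj u (a • x)) ≤ gauge K (a • x)
  rw [map_smul, gauge_smul_of_nonneg ha, gauge_smul_of_nonneg ha]
  exact mul_le_mul_of_nonneg_left hx ha

/-- The shell of good directions near `d`. -/
def shell (K : Set E3) (u d : E3) (a : ℝ) : Set E3 :=
  (Good K u ∩ nearDir d ∩ K) \ (a • K)

lemma measurableSet_shell (hK : Nice K) (hu : ‖u‖ = 1) (d : E3) (a : ℝ) :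
    MeasurableSet (shell K u d a) :=
  ((((isClosed_good hK hu).inter (isClosed_le (by fun_prop) (by fun_prop))).inter
    hK.cpt.isClosed).measurableSet).diff (hK.cpt.smul a).measurableSet

lemma volume_shell (hK : Nice K) (hu : ‖u‖ = 1) {d : E3} (hd : ‖d‖ = 1) {a : ℝ} (ha : 0 < a)
    (ha1 : a ≤ 1) :
    ENNReal.ofReal (1 - a) * volume (ball ((1 / 120 : ℝ) • d) (1 / 48000)) ≤
      2 * volume (shell K u d a) := by
  set H := Good K u ∩ nearDir d ∩ K with hH
  have hA1 : Good K u ∩ ball ((1 / 120 : ℝ) • d) (1 / 24000) ⊆ H := by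
    rintro x ⟨hG, hx⟩
    rw [mem_ball, dist_eq_norm] at hx
    have hn : ‖(1 / 120 : ℝ) • d‖ = 1 / 120 := by rw [norm_smul, hd]; norm_num
    have h1 : |‖x‖ - 1 / 120| ≤ 1 / 24000 := by
      have := abs_norm_sub_norm_le x ((1 / 120 : ℝ) • d)
      rw [hn] at this
      linarith
    rw [abs_le] at h1
    refine ⟨⟨hG, ?_⟩, hK.ball_mem (by linarith)⟩
    show ‖x - ‖x‖ • d‖ ≤ 1 / 50 * ‖x‖
    have : ‖x - ‖x‖ • d‖ ≤ 1 / 12000 := by
      rw [show x - ‖x‖ • d = (x - (1 / 120 : ℝ) • d) + ((1 / 120 : ℝ) - ‖x‖) • d by module]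
      refine (norm_add_le _ _).trans ?_
      rw [norm_smul, hd, mul_one, Real.norm_eq_abs]
      have : |(1 / 120 : ℝ) - ‖x‖| ≤ 1 / 24000 := abs_le.2 ⟨by linarith, by linarith⟩
      linarith
    linarith
  have hfin : volume H ≠ ⊤ := measure_ne_top_of_subset inter_subset_right hK.vol_ne_top
  have hinter : H ∩ a • K ⊆ a • H := by
    rintro x ⟨⟨⟨hG, hN⟩, -⟩, hxa⟩
    rw [mem_smul_set_iff_inv_smul_mem₀ ha.ne'] at hxa ⊢
    exact ⟨⟨smul_mem_good hG (inv_nonneg.2 ha.le), smul_mem_nearDir hN (inv_nonneg.2 ha.le)⟩, hxa⟩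
  have h1 : volume (H ∩ a • K) ≤ ENNReal.ofReal a * volume H := by
    refine (measure_mono hinter).trans ?_
    rw [Measure.addHaar_smul, finrank_euclideanSpace_fin, abs_pow, abs_of_pos ha]
    gcongr
    exact pow_le_of_le_one ha.le ha1 (by norm_num)
  have h2 : ENNReal.ofReal (1 - a) * volume H ≤ volume (shell K u d a) := by
    have h3 : volume H ≤ volume (shell K u d a) + ENNReal.ofReal a * volume H := by
      refine le_trans ?_ (add_le_add le_rfl h1)
      refine (measure_mono (t := shell K u d a ∪ (H ∩ a • K)) fun x hx => ?_).trans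
        (measure_union_le _ _)
      by_cases h : x ∈ a • K
      · exact Or.inr ⟨hx, h⟩
      · exact Or.inl ⟨hx, h⟩
    rw [← ENNReal.add_le_add_iff_right (ENNReal.mul_ne_top ENNReal.ofReal_ne_top hfin),
      ← add_mul, ← ENNReal.ofReal_add (by linarith) ha.le, sub_add_cancel, ENNReal.ofReal_one,
      one_mul]
    exact h3
  calc _ ≤ ENNReal.ofReal (1 - a) * (2 * volume (Good K u ∩ ball ((1 / 120 : ℝ) • d) (1 / 24000))) :=
        mul_le_mul_right (volume_good_ball hK hu hd) _
    _ ≤ 2 * (ENNReal.ofReal (1 - a) * volume H) := by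
        rw [mul_left_comm]
        gcongr
    _ ≤ _ := mul_le_mul_right h2 _

/-- A point of the shell is close to a supporting plane with normal near `d`. -/
lemma shell_point (hK : Nice K) (hu : ‖u‖ = 1) {d x : E3} {a : ℝ} (ha : 0 < a)
    (hx : x ∈ shell K u d a) :
    proj u x ∈ longShadow K u ∧ ∃ n b : E3, ‖n‖ = 1 ∧ b ∈ K ∧ (∀ z ∈ K, ⟪n, z⟫ ≤ ⟪n, b⟫) ∧
      1 / 75 ≤ ⟪n, d⟫ ∧ a * ⟪n, b⟫ < ⟪n, x⟫ := by
  obtain ⟨⟨⟨hG, hN⟩, hxK⟩, hxa⟩ := hx
  set μ := gauge K x with hμ
  have hμa : a < μ := by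
    by_contra h
    apply hxa
    rw [mem_smul_set_iff_inv_smul_mem₀ ha.ne', ← hK.cpt.isClosed.closure_eq,
      ← gauge_le_one_iff_mem_closure hK.conv hK.nhds, gauge_smul_of_nonneg (inv_nonneg.2 ha.le),
      smul_eq_mul, inv_mul_le_iff₀ ha, mul_one]
    exact not_lt.1 h
  have hμ0 : 0 < μ := ha.trans hμa
  have hμ1 : μ ≤ 1 := gauge_le_one_of_mem hxK
  have hgS : gauge (longShadow K u) (proj u x) ≤ 1 := le_trans hG hμ1
  refine ⟨?_, ?_⟩
  · rw [gauge_le_one_iff_mem_closure (longShadow_convex hK u) (longShadow_nhds hK hu),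
      (longShadow_compact hK u).isClosed.closure_eq] at hgS
    exact hgS
  set b := μ⁻¹ • x with hb
  have hgb : gauge K b = 1 := by
    rw [hb, gauge_smul_of_nonneg (inv_nonneg.2 hμ0.le), smul_eq_mul, ← hμ,
      inv_mul_cancel₀ hμ0.ne']
  have hbK : b ∈ K := by
    rw [← hK.cpt.isClosed.closure_eq, ← gauge_le_one_iff_mem_closure hK.conv hK.nhds, hgb]
  have hbi : b ∉ interior K := by
    rw [← gauge_lt_one_iff_mem_interior hK.conv hK.nhds, hgb]
    exact lt_irrefl 1
  obtain ⟨n, hn, hsup⟩ := exists_normal hK hbi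
  have hh : 1 / 30 ≤ ⟪n, b⟫ := hK.inner_normal_ge hn hsup
  have hbN : b ∈ nearDir d := smul_mem_nearDir hN (inv_nonneg.2 hμ0.le)
  have hb1 := hK.norm_le hbK
  have hb30 : ⟪n, b⟫ ≤ ‖b‖ := (real_inner_le_norm n b).trans (by rw [hn, one_mul])
  have hxeq : x = μ • b := by rw [hb, smul_smul, mul_inv_cancel₀ hμ0.ne', one_smul]
  clear_value b
  refine ⟨n, b, hn, hbK, hsup, ?_, ?_⟩
  · have h1 : ⟪n, b - ‖b‖ • d⟫ ≤ 1 / 50 * ‖b‖ := by
      refine (real_inner_le_norm _ _).trans ?_
      rw [hn, one_mul]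
      exact hbN
    rw [inner_sub_right, real_inner_smul_right] at h1
    have : 1 / 75 ≤ ‖b‖ * ⟪n, d⟫ := by linarith
    nlinarith [norm_nonneg b]
  · rw [hxeq, real_inner_smul_right]
    exact mul_lt_mul_of_pos_right hμa (by linarith)

/-- The constant of the stability lemma. -/
noncomputable def lam : ℝ := 6 / (sig * (volume (ball (0 : E3) (1 / 48000))).toReal)

lemma vball_pos : 0 < (volume (ball (0 : E3) (1 / 48000))).toReal :=
  ENNReal.toReal_pos (measure_ball_pos _ _ (by norm_num)).ne' measure_ball_lt_top.ne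

lemma lam_pos : 0 < lam := div_pos (by norm_num) (mul_pos (by norm_num [sig]) vball_pos)

/-- The area of the shadow, as a real number. -/
noncomputable def area (u : E3) (K : Set E3) : ℝ := (volume (proj u '' K)).toReal

/-- Over each point of the shadow, the shell misses the cone part of the fibre. -/
lemma shell_fibre_le (hK : Nice K) (hu : ‖u‖ = 1) {y0 : plane u} {α β G a : ℝ} {d p q : E3}
    (hp : p = (y0 : E3) + β • u) (hq : q = (y0 : E3) + α • u)
    (hαβ : α ≤ β) (hα : (y0 : E3) + α • u ∈ K) (hβ : (y0 : E3) + β • u ∈ K) (hl2 : β - α ≤ 2)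
    (hG0 : 0 < G) (ha : a = 1 - sig * G / 4) (ha0 : 0 < a)
    (hgap : ∀ n b : E3, ‖n‖ = 1 → (∀ z ∈ K, ⟪n, z⟫ ≤ ⟪n, b⟫) → 1 / 75 ≤ ⟪n, d⟫ →
      ⟪n, q⟫ ≤ ⟪n, b⟫ - G ∧ ⟪n, p⟫ ≤ ⟪n, b⟫ - G) (y : plane u) :
    volume (fib u (shell K u d a) y) +
        2 * ENNReal.ofReal ((β - α) * coneFn (proj u '' K) y0 y) ≤
      2 * volume (fib u K y) := by
  have hsig : 0 < sig := by norm_num [sig]
  set l := β - α with hl
  set S := proj u '' K with hS
  have hSc : IsCompact S := hK.cpt.image (proj u).continuous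
  have hSv : Convex ℝ S := hK.conv.linear_image (proj u).toLinearMap
  have hy0 : y0 ∈ S := ⟨(y0 : E3) + β • u, hβ, proj_line y0 β⟩
  set k := coneFn S y0 with hk
  set Sh := shell K u d a with hSh
  by_cases hyS : y ∈ S
  swap
  · have he : fib u Sh y = ∅ :=
      eq_empty_of_forall_notMem fun t ht => hyS ⟨_, ht.1.2, proj_line y t⟩
    have hk0 : k y = 0 := coneFn_eq_zero hSv hy0 hyS
    simp [he, hk0]
  obtain ⟨⟨hk0, hk1⟩, bS, ⟨z0, hz0, hz0e⟩, hbe⟩ := coneFn_spec hSc (y0 := y0) hyS
  have hk0' : 0 ≤ k y := hk0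
  have hk1' : 0 ≤ 1 - k y := sub_nonneg.2 hk1
  have hye : (y : E3) = k y • (y0 : E3) + (1 - k y) • (bS : E3) := by
    rw [hk, ← Submodule.coe_smul, ← Submodule.coe_smul, ← Submodule.coe_add, hbe]
  have hz : z0 = (bS : E3) + ⟪u, z0⟫ • u := by rw [← hz0e, proj_decomp hu]
  set t0 := ⟪u, z0⟫ with ht0
  have hmem : ∀ s, (y0 : E3) + s • u ∈ K → k y * s + (1 - k y) * t0 ∈ fib u K y := by
    intro s hs
    show (y : E3) + _ • u ∈ K
    convert hK.conv hs hz0 hk0' hk1' (add_sub_cancel _ _) using 1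
    rw [hye, hz]; module
  have hle : k y * α + (1 - k y) * t0 ≤ k y * β + (1 - k y) * t0 := by
    linarith [mul_le_mul_of_nonneg_left hαβ hk0']
  set I : Set ℝ := Icc (k y * α + (1 - k y) * t0) (k y * β + (1 - k y) * t0) with hI
  have hIsub : I ⊆ fib u K y := by
    rw [hI, ← segment_eq_Icc hle]
    exact (hK.fib_convex u y).segment_subset (hmem α hα) (hmem β hβ)
  have hIvol : volume I = ENNReal.ofReal (l * k y) := by
    rw [hI, Real.volume_Icc, hl]; congr 1; ring
  rw [← hIvol]
  rcases (fib u Sh y).eq_empty_or_nonempty with he | ⟨t1, ht1⟩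
  · rw [he, measure_empty, zero_add]
    exact mul_le_mul_right (measure_mono hIsub) _
  have hlong : y ∈ longShadow K u := by
    have := (shell_point hK hu ha0 ht1).1
    rwa [proj_line] at this
  have hc := long_of_mem hK hu hlong
  have hShsub : fib u Sh y ⊆ fib u K y := fun t ht => ht.1.2
  rcases le_or_gt (l * k y) sig with hsmallk | hbigk
  · rw [two_mul (volume (fib u K y))]
    refine add_le_add (measure_mono hShsub) (le_trans ?_ hc)
    rw [hIvol, ENNReal.ofReal_mul (by norm_num : (0 : ℝ) ≤ 2), ENNReal.ofReal_ofNat]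
    exact mul_le_mul_right (ENNReal.ofReal_le_ofReal hsmallk) _
  have hky : sig / 2 < k y := by nlinarith
  have hdis : Disjoint (fib u Sh y) I := by
    rw [Set.disjoint_left]
    intro t ht htI
    obtain ⟨-, n, b, hn, hbK, hsup, hnd, hlt⟩ := shell_point hK hu ha0 ht
    obtain ⟨hq', hp'⟩ := hgap n b hn hsup hnd
    have hzb := hsup z0 hz0
    rw [hz] at hzb
    have h1 : ⟪n, (y : E3) + t • u⟫ ≤ ⟪n, b⟫ - k y * G := by
      rcases le_or_gt 0 ⟪n, u⟫ with hnu | hnu
      · have h1 : t * ⟪n, u⟫ ≤ (k y * β + (1 - k y) * t0) * ⟪n, u⟫ :=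
          mul_le_mul_of_nonneg_right htI.2 hnu
        simp only [hp, hye, inner_add_right, inner_smul_right] at hp' hzb ⊢
        nlinarith [mul_le_mul_of_nonneg_left hp' hk0',
          mul_le_mul_of_nonneg_left hzb hk1']
      · have h1 : t * ⟪n, u⟫ ≤ (k y * α + (1 - k y) * t0) * ⟪n, u⟫ :=
          mul_le_mul_of_nonpos_right htI.1 hnu.le
        simp only [hq, hye, inner_add_right, inner_smul_right] at hq' hzb ⊢
        nlinarith [mul_le_mul_of_nonneg_left hq' hk0',
          mul_le_mul_of_nonneg_left hzb hk1']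
    have hb1 : ⟪n, b⟫ ≤ 1 :=
      (real_inner_le_norm n b).trans (by rw [hn, one_mul]; exact hK.norm_le hbK)
    have hb0 : 1 / 30 ≤ ⟪n, b⟫ := hK.inner_normal_ge hn hsup
    have h2 : (1 - a) * ⟪n, b⟫ ≤ sig * G / 4 := by
      rw [ha, sub_sub_cancel]
      exact mul_le_of_le_one_right (by positivity) hb1
    nlinarith
  have hsum : volume (fib u Sh y) + volume I ≤ volume (fib u K y) := by
    rw [← measure_union hdis measurableSet_Icc]
    exact measure_mono (union_subset hShsub hIsub)
  rw [two_mul, ← add_assoc, two_mul]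
  exact add_le_add hsum (measure_mono hIsub)

/-- An end of a nearly extremal chord is sharp. -/
theorem chord_end_sharp (hK : Nice K) (hu : ‖u‖ = 1) (y0 : plane u) {α β ε : ℝ} (hαβ : α ≤ β)
    (hα : (y0 : E3) + α • u ∈ K) (hβ : (y0 : E3) + β • u ∈ K) (hε : 0 < ε)
    (hsmall : lam * ε ≤ 1) (hdef : 3 * (volume K).toReal - area u K * (β - α) ≤ ε) :
    (y0 : E3) + α • u ∈ Sharp K (lam * ε) ∨ (y0 : E3) + β • u ∈ Sharp K (lam * ε) := by
  set G := lam * ε with hG
  have hG0 : 0 < G := mul_pos lam_pos hε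
  set q := (y0 : E3) + α • u with hq
  set p := (y0 : E3) + β • u with hp
  by_contra hcon
  rw [not_or] at hcon
  have hclose : ∀ e ∈ K, e ∉ Sharp K G → ∃ n1 : E3, ∀ n : E3, ‖n‖ = 1 → Slack K n e G →
      ‖n - n1‖ < 1 / 100 := by
    intro e he hne
    by_cases h : ∃ n1 : E3, ‖n1‖ = 1 ∧ Slack K n1 e G
    · obtain ⟨n1, h1, h2⟩ := h
      refine ⟨n1, fun n hn hs => ?_⟩
      by_contra hlt
      exact hne ⟨he, n, n1, hn, h1, not_lt.1 hlt, hs, h2⟩
    · exact ⟨0, fun n hn hs => (h ⟨n, hn, hs⟩).elim⟩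
  obtain ⟨nq, hnq⟩ := hclose q hα hcon.1
  obtain ⟨np, hnp⟩ := hclose p hβ hcon.2
  obtain ⟨d, hd, hdp, hdq⟩ := exists_unit_orthogonal np nq
  have hgap : ∀ n b : E3, ‖n‖ = 1 → (∀ z ∈ K, ⟪n, z⟫ ≤ ⟪n, b⟫) → 1 / 75 ≤ ⟪n, d⟫ →
      ⟪n, q⟫ ≤ ⟪n, b⟫ - G ∧ ⟪n, p⟫ ≤ ⟪n, b⟫ - G := by
    intro n b hn hsup hnd
    have key : ∀ e n1 : E3, ⟪n1, d⟫ = 0 → (∀ m : E3, ‖m‖ = 1 → Slack K m e G → ‖m - n1‖ < 1 / 100) →
        ⟪n, e⟫ ≤ ⟪n, b⟫ - G := by
      intro e n1 h0 h1
      by_contra hlt
      have hs : Slack K n e G := fun z hz => by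
        rw [inner_sub_right]; linarith [hsup z hz]
      have h2 := h1 n hn hs
      have h3 := real_inner_le_norm (n - n1) d
      rw [inner_sub_left, h0, sub_zero, hd, mul_one] at h3
      linarith
    exact ⟨key q nq hdq hnq, key p np hdp hnp⟩
  set a := 1 - sig * G / 4 with ha
  have hsig : 0 < sig := by norm_num [sig]
  have ha0 : 0 < a := by
    have : sig * G ≤ 1 * 1 := mul_le_mul (by norm_num [sig]) hsmall hG0.le zero_le_one
    rw [ha]; linarith
  have ha1 : a ≤ 1 := by rw [ha]; nlinarith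
  set l := β - α with hl
  have hl0 : 0 ≤ l := sub_nonneg.2 hαβ
  have hl2 : l ≤ 2 := by
    have h1 := hK.norm_le hα
    have h2 := hK.norm_le hβ
    have h3 : ‖l • u‖ ≤ 2 := by
      rw [show l • u = p - q by rw [hp, hq, hl]; module]
      exact (norm_sub_le _ _).trans (by linarith)
    rwa [norm_smul, hu, mul_one, Real.norm_eq_abs, abs_of_nonneg hl0] at h3
  set S := proj u '' K with hS
  have hSc : IsCompact S := hK.cpt.image (proj u).continuous
  have hSv : Convex ℝ S := hK.conv.linear_image (proj u).toLinearMap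
  have hy0 : y0 ∈ S := ⟨p, hβ, proj_line y0 β⟩
  set k := coneFn S y0 with hk
  set Sh := shell K u d a with hSh
  have hShm : MeasurableSet Sh := measurableSet_shell hK hu d a
  have hpt : ∀ y : plane u, volume (fib u Sh y) + 2 * ENNReal.ofReal (l * k y)
      ≤ 2 * volume (fib u K y) :=
    shell_fibre_le hK hu hp hq hαβ hα hβ hl2 hG0 ha ha0 hgap
  have hint : volume Sh + 2 * (ENNReal.ofReal l * (ENNReal.ofReal (1 / 3) * volume S))
      ≤ 2 * volume K := by
    rw [← lintegral_coneFn (finrank_plane hu) hSc hSv hy0, volume_eq_lintegral_fib hu hShm,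
      volume_eq_lintegral_fib hu hK.meas, ← lintegral_const_mul' _ _ ENNReal.ofReal_ne_top,
      ← lintegral_const_mul' _ _ ENNReal.ofNat_ne_top,
      ← lintegral_const_mul' _ _ ENNReal.ofNat_ne_top,
      ← lintegral_add_right _ (((measurable_coneFn hSc hSv hy0).ennreal_ofReal.const_mul _).const_mul _)]
    refine lintegral_mono fun y => ?_
    rw [← ENNReal.ofReal_mul hl0]
    exact hpt y
  have hShfin : volume Sh ≠ ⊤ := measure_ne_top_of_subset (fun x hx => hx.1.2) hK.vol_ne_top
  have hSfin : volume S ≠ ⊤ := hSc.measure_lt_top.ne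
  have hreal : (volume Sh).toReal + 2 * (l * (1 / 3 * area u K)) ≤ 2 * (volume K).toReal := by
    have h := ENNReal.toReal_mono (ENNReal.mul_ne_top ENNReal.ofNat_ne_top hK.vol_ne_top) hint
    rwa [ENNReal.toReal_add hShfin (by finiteness), ENNReal.toReal_mul, ENNReal.toReal_mul,
      ENNReal.toReal_mul, ENNReal.toReal_mul, ENNReal.toReal_ofReal hl0,
      ENNReal.toReal_ofReal (by norm_num), ENNReal.toReal_ofNat] at h
  have hlow : (sig * G / 4) * (volume (ball (0 : E3) (1 / 48000))).toReal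
      ≤ 2 * (volume Sh).toReal := by
    have h := ENNReal.toReal_mono (ENNReal.mul_ne_top ENNReal.ofNat_ne_top hShfin)
      (volume_shell hK hu hd ha0 ha1)
    rwa [ENNReal.toReal_mul, ENNReal.toReal_mul, ENNReal.toReal_ofReal (by linarith),
      ENNReal.toReal_ofNat, Measure.addHaar_ball_center, ha, sub_sub_cancel] at h
  have hkey : sig * G / 4 * (volume (ball (0 : E3) (1 / 48000))).toReal = 6 / 4 * ε := by
    rw [hG, lam]
    field_simp [hsig.ne', vball_pos.ne']
  linarith

end Vale.Agent.P243.Improve
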